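import Mathlib

/-! General probability lemmas for row 160 (helper12): entropy duality and a scale induction for
moment generating functions. -/

set_option autoImplicit false

namespace Crest.Agent.H12.EntDual

open MeasureTheory Real

/-- Entropy duality (Donsker-Varadhan): for `0 ≤ f ≤ M` and bounded `Y`,
`∫ f Y ≤ (∫ f)/h * (log (M / ∫ f) + log ∫ exp (h Y))`. -/
theorem entropy_duality {Ω : Type*} [MeasurableSpace Ω] (μ : Measure Ω) [IsProbabilityMeasure μ]
    (f Y : Ω → ℝ) (M B h : ℝ) (hf0 : ∀ ω, 0 ≤ f ω) (hfM : ∀ ω, f ω ≤ M)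
    (hfm : AEStronglyMeasurable f μ) (hYm : AEStronglyMeasurable Y μ) (hYB : ∀ ω, |Y ω| ≤ B)
    (hh : 0 < h) (hE : 0 < ∫ ω, f ω ∂μ) :
    ∫ ω, f ω * Y ω ∂μ ≤
      (∫ ω, f ω ∂μ) / h *
        (Real.log (M / ∫ ω, f ω ∂μ) + Real.log (∫ ω, Real.exp (h * Y ω) ∂μ)) := by
  set E := ∫ ω, f ω ∂μ with hEdef
  have hfint : Integrable f μ := by
    refine Integrable.of_bound hfm M (Filter.Eventually.of_forall fun ω => ?_)
    rw [Real.norm_eq_abs, abs_of_nonneg (hf0 ω)]; exact hfM ω
  have hexpm : AEStronglyMeasurable (fun ω => Real.exp (h * Y ω)) μ :=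
    Real.continuous_exp.comp_aestronglyMeasurable (hYm.const_mul h)
  have hexpint : Integrable (fun ω => Real.exp (h * Y ω)) μ := by
    refine Integrable.of_bound hexpm (Real.exp (h * B)) (Filter.Eventually.of_forall fun ω => ?_)
    rw [Real.norm_eq_abs, abs_of_pos (Real.exp_pos _)]
    apply Real.exp_le_exp.2
    have := (abs_le.1 (hYB ω)).2
    nlinarith
  have hfYint : Integrable (fun ω => f ω * Y ω) μ := by
    refine Integrable.of_bound (hfm.mul hYm) (M * B) (Filter.Eventually.of_forall fun ω => ?_)
    rw [Real.norm_eq_abs, abs_mul, abs_of_nonneg (hf0 ω)]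
    exact mul_le_mul (hfM ω) (hYB ω) (abs_nonneg _) ((hf0 ω).trans (hfM ω))
  set Z := ∫ ω, Real.exp (h * Y ω) ∂μ with hZdef
  have hZ : 0 < Z := by
    have : Real.exp (-(h * B)) ≤ Z := by
      have h1 : ∫ _ω : Ω, Real.exp (-(h * B)) ∂μ ≤ Z := by
        apply integral_mono (integrable_const _) hexpint
        intro ω
        apply Real.exp_le_exp.2
        have := (abs_le.1 (hYB ω)).1
        nlinarith
      simpa using h1
    exact lt_of_lt_of_le (Real.exp_pos _) this
  have hM : 0 < M := by
    by_contra hM
    push_neg at hM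
    have : ∫ ω, f ω ∂μ ≤ ∫ _ω : Ω, (0:ℝ) ∂μ := by
      apply integral_mono hfint (integrable_const _)
      intro ω; exact (hfM ω).trans hM
    simp at this
    linarith
  -- pointwise inequality
  have key : ∀ ω, f ω * (h * Y ω) - f ω * Real.log Z ≤
      f ω * Real.log (M / E) + E * (Real.exp (h * Y ω) / Z) - f ω := by
    intro ω
    rcases (hf0 ω).eq_or_lt with h0 | h0
    · rw [← h0]; simp
      positivity
    · have hg : 0 < f ω / E := div_pos h0 hE
      have hu : 0 < Real.exp (h * Y ω) / Z / (f ω / E) := by positivity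
      have h1 := Real.log_le_sub_one_of_pos hu
      rw [Real.log_div (by positivity) (by positivity), Real.log_div (by positivity) hZ.ne',
        Real.log_exp] at h1
      have h2 : Real.log (f ω / E) ≤ Real.log (M / E) := by
        apply Real.log_le_log hg
        exact div_le_div_of_nonneg_right (hfM ω) hE.le
      have h3 : f ω * (h * Y ω - Real.log Z - Real.log (f ω / E)) ≤
          f ω * (Real.exp (h * Y ω) / Z / (f ω / E) - 1) :=
        mul_le_mul_of_nonneg_left h1 h0.le
      have h4 : f ω * (Real.exp (h * Y ω) / Z / (f ω / E) - 1) =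
          E * (Real.exp (h * Y ω) / Z) - f ω := by
        field_simp
      have h5 : f ω * Real.log (f ω / E) ≤ f ω * Real.log (M / E) :=
        mul_le_mul_of_nonneg_left h2 h0.le
      nlinarith
  have hint := integral_mono (μ := μ) (f := fun ω => f ω * (h * Y ω) - f ω * Real.log Z)
    (g := fun ω => f ω * Real.log (M / E) + E * (Real.exp (h * Y ω) / Z) - f ω)
    (by
      apply Integrable.sub
      · have := hfYint.const_mul h
        refine this.congr (Filter.Eventually.of_forall fun ω => ?_)
        simp only; ring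
      · exact hfint.mul_const _)
    (by
      apply Integrable.sub _ hfint
      apply Integrable.add (hfint.mul_const _)
      exact (hexpint.div_const Z).const_mul E)
    key
  have hL : ∫ ω, (f ω * (h * Y ω) - f ω * Real.log Z) ∂μ =
      h * (∫ ω, f ω * Y ω ∂μ) - E * Real.log Z := by
    rw [integral_sub]
    · rw [integral_mul_const, ← integral_const_mul]
      congr 1
      apply integral_congr_ae
      exact Filter.Eventually.of_forall fun ω => by simp only; ring
    · have := hfYint.const_mul h
      refine this.congr (Filter.Eventually.of_forall fun ω => ?_)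
      simp only; ring
    · exact hfint.mul_const _
  have hR : ∫ ω, (f ω * Real.log (M / E) + E * (Real.exp (h * Y ω) / Z) - f ω) ∂μ =
      E * Real.log (M / E) := by
    rw [integral_sub, integral_add, integral_mul_const, integral_const_mul, integral_div]
    · rw [← hZdef, div_self hZ.ne']
      ring
    · exact hfint.mul_const _
    · exact (hexpint.div_const Z).const_mul E
    · exact (hfint.mul_const _).add ((hexpint.div_const Z).const_mul E)
    · exact hfint
  rw [hL, hR] at hint
  have : ∫ ω, f ω * Y ω ∂μ ≤ (E * Real.log (M / E) + E * Real.log Z) / h := by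
    rw [le_div_iff₀ hh]; linarith
  calc ∫ ω, f ω * Y ω ∂μ ≤ (E * Real.log (M / E) + E * Real.log Z) / h := this
    _ = E / h * (Real.log (M / E) + Real.log Z) := by ring

end Crest.Agent.H12.EntDual
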