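import Crest.Agent.H12.SplitCount
import Crest.Agent.Helper7.MapExists

set_option autoImplicit false
open Set Filter MeasureTheory
open scoped Topology ENNReal
open Crest.AnalysisR.OT

namespace Crest.Agent.H12.Split

namespace Sh
variable {d : ℕ} (S : Sh d)

lemma exists_tau (hd : 0 < d) {θ : ℝ} (hθ : 0 < θ) :
    ∃ τ : EuclideanSpace ℝ (Fin d) → EuclideanSpace ℝ (Fin d), Measurable τ ∧
      S.γ.map τ = (2 : ℝ≥0∞)⁻¹ • (S.γ.map (S.b false) + S.γ.map (S.b true)) ∧
      ∀ᵐ x ∂S.γ, ∃ k, τ x ∈ S.B k ∧ S.sb k (τ x) ∈ S.A ∧ S.b k (S.sb k (τ x)) = τ x ∧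
        ‖x - S.sb k (τ x)‖ ≤ θ := by
  classical
  have hprob := S.prob
  let ds := TopologicalSpace.denseSeq (EuclideanSpace ℝ (Fin d))
  have hex : ∀ x : EuclideanSpace ℝ (Fin d), ∃ n, x ∈ Metric.ball (ds n) (θ / 2) := by
    intro x
    have h := TopologicalSpace.denseRange_denseSeq (EuclideanSpace ℝ (Fin d))
    obtain ⟨n, hn⟩ := h.exists_dist_lt x (half_pos hθ)
    exact ⟨n, hn⟩
  let j : EuclideanSpace ℝ (Fin d) → ℕ := fun x => Nat.find (hex x)
  have hj : Measurable j := measurable_find hex (fun k => measurableSet_ball)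
  have hjs : ∀ x, x ∈ Metric.ball (ds (j x)) (θ / 2) := fun x => Nat.find_spec (hex x)
  let D : ℕ → Set (EuclideanSpace ℝ (Fin d)) := fun n => j ⁻¹' {n}
  have hD : ∀ n, MeasurableSet (D n) := fun n => hj (measurableSet_singleton n)
  have hclose : ∀ n x x', x ∈ D n → x' ∈ D n → ‖x - x'‖ ≤ θ := by
    intro n x x' hx hx'
    have h1 := hjs x
    have h2 := hjs x'
    rw [show j x = n from hx, Metric.mem_ball, dist_eq_norm] at h1
    rw [show j x' = n from hx', Metric.mem_ball, dist_eq_norm] at h2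
    have : x - x' = (x - ds n) - (x' - ds n) := by abel
    rw [this]
    have := norm_sub_le (x - ds n) (x' - ds n)
    linarith
  let γn : ℕ → Measure (EuclideanSpace ℝ (Fin d)) := fun n => S.γ.restrict (D n)
  have hsum : S.γ = Measure.sum γn := by
    have h1 : (⋃ n, D n) = univ := by
      ext x; simp [D]
    have h2 : Pairwise (Function.onFun Disjoint D) := by
      intro m n hmn
      rw [Function.onFun, Set.disjoint_left]
      intro x hx hx'
      exact hmn (by rw [← show j x = m from hx, ← show j x = n from hx'])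
    have h3 := Measure.restrict_iUnion (μ := S.γ) h2 hD
    rw [h1, Measure.restrict_univ] at h3
    exact h3
  let tn : ℕ → Measure (EuclideanSpace ℝ (Fin d)) := fun n =>
    (2 : ℝ≥0∞)⁻¹ • ((γn n).map (S.b false) + (γn n).map (S.b true))
  have hfin : ∀ n, IsFiniteMeasure (γn n) := fun n => inferInstance
  have hfin2 : ∀ n, IsFiniteMeasure (tn n) := by
    intro n
    have := hfin n
    have h1 : IsFiniteMeasure ((γn n).map (S.b false)) := Measure.isFiniteMeasure_map _ _
    have h2 : IsFiniteMeasure ((γn n).map (S.b true)) := Measure.isFiniteMeasure_map _ _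
    exact Measure.smul_finite _ (by simp)
  have hmass : ∀ n, γn n univ = tn n univ := by
    intro n
    simp only [tn, Measure.smul_apply, Measure.add_apply, smul_eq_mul,
      Measure.map_apply (S.hb _) MeasurableSet.univ, preimage_univ]
    rw [← two_mul, ← mul_assoc, ENNReal.inv_mul_cancel (by norm_num) (by norm_num), one_mul]
  have hac : ∀ n, (γn n).AbsolutelyContinuous volume := fun n =>
    (Measure.absolutelyContinuous_of_le Measure.restrict_le_self).trans S.ac
  have hmaps : ∀ n, ∃ t : EuclideanSpace ℝ (Fin d) → EuclideanSpace ℝ (Fin d),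
      Measurable t ∧ (γn n).map t = tn n := by
    intro n
    have := hfin n
    have := hfin2 n
    exact Crest.Agent.Helper7.exists_map_eq hd (γn n) (tn n) (hac n) (hmass n)
  choose t ht htmap using hmaps
  have hτm : Measurable (fun x => t (j x) x) := by
    have h1 : Measurable (fun p : EuclideanSpace ℝ (Fin d) × ℕ => t p.2 p.1) :=
      measurable_from_prod_countable_left fun n => ht n
    exact h1.comp (measurable_id.prodMk hj)
  have hτn : ∀ n, (fun x => t (j x) x) =ᵐ[γn n] t n := by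
    intro n
    have : ∀ᵐ x ∂(γn n), x ∈ D n := ae_restrict_mem (hD n)
    filter_upwards [this] with x hx
    rw [show j x = n from hx]
  refine ⟨fun x => t (j x) x, hτm, ?_, ?_⟩
  · have h1 : S.γ.map (fun x => t (j x) x) = Measure.sum tn := by
      conv_lhs => rw [hsum]
      rw [Measure.map_sum hτm.aemeasurable]
      congr 1
      funext n
      rw [Measure.map_congr (hτn n), htmap]
    rw [h1]
    have h2 : S.γ.map (S.b false) = Measure.sum (fun n => (γn n).map (S.b false)) := by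
      conv_lhs => rw [hsum]
      rw [Measure.map_sum (S.hb _).aemeasurable]
    have h3 : S.γ.map (S.b true) = Measure.sum (fun n => (γn n).map (S.b true)) := by
      conv_lhs => rw [hsum]
      rw [Measure.map_sum (S.hb _).aemeasurable]
    rw [h2, h3, Measure.sum_add_sum]
    ext E hE
    simp only [tn, Measure.sum_apply _ hE, Measure.smul_apply, smul_eq_mul, ENNReal.tsum_mul_left]
  · -- a.e. property
    let Gd : ℕ → Set (EuclideanSpace ℝ (Fin d)) := fun n =>
      ⋃ k, {y | y ∈ S.B k ∧ S.sb k y ∈ S.A ∧ S.b k (S.sb k y) = y ∧ S.sb k y ∈ D n}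
    have hG : ∀ n, MeasurableSet (Gd n) := by
      intro n
      refine MeasurableSet.iUnion fun k => ?_
      have h1 : MeasurableSet {y | S.b k (S.sb k y) = y} :=
        measurableSet_eq_fun ((S.hb k).comp (S.hsb k)) measurable_id
      exact (S.hB k).inter ((S.hsb k S.hA).inter (h1.inter (S.hsb k (hD n))))
    rw [hsum, Measure.ae_sum_iff]
    intro n
    have h1 : ∀ᵐ x ∂(γn n), x ∈ D n := ae_restrict_mem (hD n)
    have hA' : ∀ᵐ x ∂(γn n), x ∈ S.A := ae_restrict_of_ae S.hγA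
    have h2 : ∀ᵐ y ∂(tn n), y ∈ Gd n := by
      apply Measure.ae_smul_measure
      rw [ae_add_measure_iff]
      have key : ∀ k, ∀ᵐ y ∂((γn n).map (S.b k)), y ∈ Gd n := by
        intro k
        refine (ae_map_iff (S.hb k).aemeasurable (hG n)).2 ?_
        filter_upwards [h1, hA'] with x hx hxA
        refine mem_iUnion.2 ⟨k, S.bB k x hxA, ?_, ?_, ?_⟩
        · rw [S.sbb k x hxA]; exact hxA
        · rw [S.sbb k x hxA]
        · rw [S.sbb k x hxA]; exact hx
      exact ⟨key false, key true⟩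
    have h3 : ∀ᵐ x ∂(γn n), t n x ∈ Gd n := by
      rw [← htmap n] at h2
      exact ae_of_ae_map (ht n).aemeasurable h2
    filter_upwards [h1, h3] with x hx hx3
    rw [mem_iUnion] at hx3
    obtain ⟨k, q1, q2, q3, q4⟩ := hx3
    rw [show j x = n from hx]
    exact ⟨k, q1, q2, q3, hclose n _ _ hx q4⟩

/-- `T₂` built from `τ` -/
noncomputable def mapT (τ : EuclideanSpace ℝ (Fin d) → EuclideanSpace ℝ (Fin d)) (v w : Bool →
    EuclideanSpace ℝ (Fin d) → EuclideanSpace ℝ (Fin d)) (x : EuclideanSpace ℝ (Fin d)) :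
    EuclideanSpace ℝ (Fin d) :=
  open Classical in
  if x ∈ S.A then τ x else if x ∈ S.B false then v false x else if x ∈ S.C false then w false x else
  if x ∈ S.B true then v true x else w true x

lemma mapT_meas {τ : EuclideanSpace ℝ (Fin d) → EuclideanSpace ℝ (Fin d)} {v w : Bool →
    EuclideanSpace ℝ (Fin d) → EuclideanSpace ℝ (Fin d)} (hτ : Measurable τ)
    (hv : ∀ k, Measurable (v k)) (hw : ∀ k, Measurable (w k)) : Measurable (S.mapT τ v w) := by
  classical
  unfold mapT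
  exact Measurable.ite S.hA hτ (Measurable.ite (S.hB _) (hv _) (Measurable.ite (S.hC _) (hw _)
    (Measurable.ite (S.hB _) (hv _) (hw _))))

lemma mapT_A {τ : EuclideanSpace ℝ (Fin d) → EuclideanSpace ℝ (Fin d)} {v w : Bool →
    EuclideanSpace ℝ (Fin d) → EuclideanSpace ℝ (Fin d)} {x : EuclideanSpace ℝ (Fin d)}
    (hx : x ∈ S.A) : S.mapT τ v w x = τ x := by
  unfold mapT; rw [if_pos hx]

lemma mapT_B {τ : EuclideanSpace ℝ (Fin d) → EuclideanSpace ℝ (Fin d)} {v w : Bool →
    EuclideanSpace ℝ (Fin d) → EuclideanSpace ℝ (Fin d)} {x : EuclideanSpace ℝ (Fin d)} (k : Bool)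
    (hx : x ∈ S.B k) : S.mapT τ v w x = v k x := by
  unfold mapT
  rw [if_neg (fun h => S.dAB k x h hx)]
  cases k
  · rw [if_pos hx]
  · rw [if_neg (fun h => S.dBB x h hx), if_neg (fun h => S.dBC _ _ x hx h), if_pos hx]

lemma mapT_C {τ : EuclideanSpace ℝ (Fin d) → EuclideanSpace ℝ (Fin d)} {v w : Bool →
    EuclideanSpace ℝ (Fin d) → EuclideanSpace ℝ (Fin d)} {x : EuclideanSpace ℝ (Fin d)} (k : Bool)
    (hx : x ∈ S.C k) : S.mapT τ v w x = w k x := by
  unfold mapT
  rw [if_neg (fun h => S.dAC k x h hx), if_neg (fun h => S.dBC _ _ x h hx)]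
  cases k
  · rw [if_pos hx]
  · rw [if_neg (fun h => S.dCC x h hx), if_neg (fun h => S.dBC _ _ x h hx)]

lemma map_mu {T : EuclideanSpace ℝ (Fin d) → EuclideanSpace ℝ (Fin d)} (hT : Measurable T) :
    S.mu.map T = (3 : ℝ≥0∞)⁻¹ • S.γ.map T + (6 : ℝ≥0∞)⁻¹ • (S.γ.map (fun x => T (S.b false x)) +
      S.γ.map (fun x => T (S.c false x)) + S.γ.map (fun x => T (S.b true x)) +
      S.γ.map (fun x => T (S.c true x))) := by
  unfold mu
  rw [Measure.map_add _ _ hT, Measure.map_smul, Measure.map_smul, Measure.map_add _ _ hT,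
    Measure.map_add _ _ hT, Measure.map_add _ _ hT, Measure.map_map hT (S.hb _),
    Measure.map_map hT (S.hb _), Measure.map_map hT (S.hc _), Measure.map_map hT (S.hc _)]
  rfl

lemma smul36 (m : Measure (EuclideanSpace ℝ (Fin d))) :
    (3 : ℝ≥0∞)⁻¹ • ((2 : ℝ≥0∞)⁻¹ • m) = (6 : ℝ≥0∞)⁻¹ • m := by
  rw [smul_smul]
  congr 1
  rw [← ENNReal.mul_inv (by norm_num) (by norm_num)]; norm_num

theorem approx (hd : 0 < d) {ε : ℝ≥0∞} (hε : 0 < ε) :
    ∃ T₂ T₃ : EuclideanSpace ℝ (Fin d) → EuclideanSpace ℝ (Fin d), Measurable T₂ ∧ Measurable T₃ ∧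
      S.mu.map T₂ = S.mu ∧ S.mu.map T₃ = S.mu ∧
      ∫⁻ x, S.cost (x, T₂ x, T₃ x) ∂S.mu < S.J + S.J + S.J + ε := by
  classical
  have hprob := S.prob
  obtain ⟨δ, hδ0, hδ⟩ : ∃ δ : ℝ, 0 < δ ∧ ENNReal.ofReal δ < ε := by
    obtain ⟨r, hr0, hr⟩ := ENNReal.lt_iff_exists_real_btwn.1 hε
    obtain ⟨hr1, hr2⟩ := hr
    exact ⟨r, by simpa using hr1, hr2⟩
  obtain ⟨θ, hθ, hP4⟩ := S.P4 δ hδ0
  obtain ⟨τ, hτm, hτmap, hτae⟩ := S.exists_tau hd hθ
  -- partner map
  set Pc : EuclideanSpace ℝ (Fin d) → EuclideanSpace ℝ (Fin d) := fun y =>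
    if y ∈ S.B false then S.c false (S.sb false y) else S.c true (S.sb true y) with hPc
  have hPcm : Measurable Pc :=
    Measurable.ite (S.hB _) ((S.hc _).comp (S.hsb _)) ((S.hc _).comp (S.hsb _))
  have hPcB : ∀ k y, y ∈ S.B k → Pc y = S.c k (S.sb k y) := by
    intro k y hy
    cases k
    · rw [hPc]; simp only; rw [if_pos hy]
    · rw [hPc]; simp only; rw [if_neg (fun h => S.dBB y h hy)]
  set T₂ := S.mapT τ (fun k y => S.c k (S.sb k y)) (fun k y => S.sc k y) with hT₂
  set T₃ := S.mapT (fun x => Pc (τ x)) (fun k y => S.sb k y) (fun k y => S.b k (S.sc k y)) with hT₃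
  have mT₂ : Measurable T₂ :=
    S.mapT_meas hτm (fun k => (S.hc k).comp (S.hsb k)) (fun k => S.hsc k)
  have mT₃ : Measurable T₃ :=
    S.mapT_meas (hPcm.comp hτm) (fun k => S.hsb k) (fun k => (S.hb k).comp (S.hsc k))
  -- values
  have v2b : ∀ k, ∀ x ∈ S.A, T₂ (S.b k x) = S.c k x := by
    intro k x hx
    rw [hT₂, S.mapT_B k (S.bB k x hx), S.sbb k x hx]
  have v2c : ∀ k, ∀ x ∈ S.A, T₂ (S.c k x) = x := by
    intro k x hx
    rw [hT₂, S.mapT_C k (S.cC k x hx), S.scc k x hx]
  have v3b : ∀ k, ∀ x ∈ S.A, T₃ (S.b k x) = x := by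
    intro k x hx
    rw [hT₃, S.mapT_B k (S.bB k x hx), S.sbb k x hx]
  have v3c : ∀ k, ∀ x ∈ S.A, T₃ (S.c k x) = S.b k x := by
    intro k x hx
    rw [hT₃, S.mapT_C k (S.cC k x hx), S.scc k x hx]
  have map_id : ∀ F : EuclideanSpace ℝ (Fin d) → EuclideanSpace ℝ (Fin d), (∀ x ∈ S.A, F x = x) →
      S.γ.map F = S.γ := by
    intro F hF
    have : F =ᵐ[S.γ] id := by
      filter_upwards [S.hγA] with x hx using hF x hx
    rw [Measure.map_congr this, Measure.map_id]
  have map_eq : ∀ F G : EuclideanSpace ℝ (Fin d) → EuclideanSpace ℝ (Fin d),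
      (∀ x ∈ S.A, F x = G x) → S.γ.map F = S.γ.map G := by
    intro F G hF
    refine Measure.map_congr ?_
    filter_upwards [S.hγA] with x hx using hF x hx
  have hm2 : S.mu.map T₂ = S.mu := by
    rw [S.map_mu mT₂]
    rw [map_eq T₂ τ (fun x hx => by rw [hT₂, S.mapT_A hx]), hτmap, smul36,
      map_eq (fun x => T₂ (S.b false x)) (S.c false) (v2b false),
      map_eq (fun x => T₂ (S.b true x)) (S.c true) (v2b true),
      map_id (fun x => T₂ (S.c false x)) (v2c false), map_id (fun x => T₂ (S.c true x)) (v2c true),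
      mu_eq, ← smul_add]
    congr 1
    abel
  have hm3 : S.mu.map T₃ = S.mu := by
    rw [S.map_mu mT₃]
    have h1 : S.γ.map T₃ = (2 : ℝ≥0∞)⁻¹ • (S.γ.map (S.c false) + S.γ.map (S.c true)) := by
      rw [map_eq T₃ (fun x => Pc (τ x)) (fun x hx => by rw [hT₃, S.mapT_A hx])]
      have h2 : S.γ.map (fun x => Pc (τ x)) = (S.γ.map τ).map Pc := by
        rw [Measure.map_map hPcm hτm]; rfl
      rw [h2, hτmap, Measure.map_smul, Measure.map_add _ _ hPcm, Measure.map_map hPcm (S.hb _),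
        Measure.map_map hPcm (S.hb _)]
      rw [map_eq (Pc ∘ S.b false) (S.c false) (fun x hx => by
          rw [Function.comp_apply, hPcB false _ (S.bB _ x hx), S.sbb _ x hx]),
        map_eq (Pc ∘ S.b true) (S.c true) (fun x hx => by
          rw [Function.comp_apply, hPcB true _ (S.bB _ x hx), S.sbb _ x hx])]
    rw [h1, smul36,
      map_eq (fun x => T₃ (S.c false x)) (S.b false) (v3c false),
      map_eq (fun x => T₃ (S.c true x)) (S.b true) (v3c true),
      map_id (fun x => T₃ (S.b false x)) (v3b false), map_id (fun x => T₃ (S.b true x)) (v3b true),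
      mu_eq, ← smul_add]
    congr 1
    abel
  refine ⟨T₂, T₃, mT₂, mT₃, hm2, hm3, ?_⟩
  -- cost estimate
  have mg : Measurable (fun x => (x, T₂ x, T₃ x)) := measurable_id.prodMk (mT₂.prodMk mT₃)
  have hae : ∀ᵐ x ∂S.mu, S.cost (x, T₂ x, T₃ x) ≤
      S.U x + S.U (T₂ x) + S.U (T₃ x) + ENNReal.ofReal δ := by
    refine S.ae_mu (measurableSet_le (S.hcost.comp mg) ?_) ?_
    · exact ((S.hU.add (S.hU.comp mT₂)).add (S.hU.comp mT₃)).add_const _
    filter_upwards [S.hγA, hτae] with x hx hτx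
    refine ⟨?_, fun k => ⟨?_, ?_⟩⟩
    · obtain ⟨k, q1, q2, q3, q4⟩ := hτx
      have e2 : T₂ x = τ x := by rw [hT₂, S.mapT_A hx]
      have e3 : T₃ x = Pc (τ x) := by rw [hT₃, S.mapT_A hx]
      rw [e2, e3, hPcB k _ q1]
      have := hP4 k x hx (S.sb k (τ x)) q2 q4
      rwa [q3] at this
    · rw [v2b k x hx, v3b k x hx]
      have h1 : S.cost (S.b k x, S.c k x, x) = S.cost (x, S.b k x, S.c k x) := by
        rw [S.s23, S.s12]
      rw [h1, ← S.P2 k x hx]
      have : S.U x + S.U (S.b k x) + S.U (S.c k x) = S.U (S.b k x) + S.U (S.c k x) + S.U x := by ring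
      rw [this]
      exact le_self_add
    · rw [v2c k x hx, v3c k x hx]
      have h1 : S.cost (S.c k x, x, S.b k x) = S.cost (x, S.b k x, S.c k x) := by
        rw [S.s12, S.s23]
      rw [h1, ← S.P2 k x hx]
      have : S.U x + S.U (S.b k x) + S.U (S.c k x) = S.U (S.c k x) + S.U x + S.U (S.b k x) := by ring
      rw [this]
      exact le_self_add
  have hint : ∫⁻ x, (S.U x + S.U (T₂ x) + S.U (T₃ x)) ∂S.mu = S.J + S.J + S.J := by
    rw [← S.lintegral_coupling (S.graph_coupling mT₂ mT₃ hm2 hm3), lintegral_map _ mg]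
    exact ((S.hU.comp measurable_fst).add (S.hU.comp (measurable_fst.comp measurable_snd))).add
        (S.hU.comp (measurable_snd.comp measurable_snd))
  calc ∫⁻ x, S.cost (x, T₂ x, T₃ x) ∂S.mu
      ≤ ∫⁻ x, (S.U x + S.U (T₂ x) + S.U (T₃ x) + ENNReal.ofReal δ) ∂S.mu := lintegral_mono_ae hae
    _ = S.J + S.J + S.J + ENNReal.ofReal δ := by
      rw [lintegral_add_right _ measurable_const, hint]
      simp
    _ < S.J + S.J + S.J + ε := (ENNReal.add_lt_add_iff_left S.J_ne_top).2 hδ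

end Sh

end Crest.Agent.H12.Split
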