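import Mathlib

set_option autoImplicit false
open Real Set Filter
open scoped Topology

namespace Crest.Agent.H12.Split

lemma ev_lt {F H : ℝ → ℝ} (hF : ContinuousAt F 0) (hH : ContinuousAt H 0) (h : F 0 < H 0) :
    ∀ᶠ δ in 𝓝[>] (0 : ℝ), F δ < H δ :=
  nhdsWithin_le_nhds (hF.eventually_lt hH h)

lemma cont_rpow {F : ℝ → ℝ} (hF : ContinuousAt F 0) (h : F 0 ≠ 0) (p : ℝ) :
    ContinuousAt (fun δ => F δ ^ p) 0 :=
  hF.rpow_const (Or.inl h)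

lemma exists_delta {s : ℝ} (hs : 0 < s) (K ρ' : ℝ) :
    ∃ β₁ δ : ℝ, 0 < δ ∧ δ < 1 / 8 ∧ β₁ ≤ 1 ∧
      β₁ < (2 + 2 * δ) ^ (-s) ∧
      2 + 2 * β₁ < 2 * (1 + 2 * δ) ^ (-s) + (√2 + 2 * δ) ^ (-s) ∧
      6 < (2 * δ) ^ (-s) ∧
      K / 2 * δ ^ 2 < 1 ∧
      K / 2 * δ ^ 2 + ρ' * δ < 2 ^ (-s) / 2 ∧
      2 ^ (-s) / 2 + ρ' * δ < β₁ ∧
      (1 - δ) ^ (-s) + 1 + (2 - δ) ^ (-s) - 2 - 2 ^ (-s) / 2 < β₁ ∧
      0 < 2 * (1 + 2 * δ) ^ (-s) + (2 + 2 * δ) ^ (-s) - 2 - 2 ^ (-s) / 2 - ρ' * δ := by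
  set p : ℝ := 2 ^ (-s) with hp
  set q : ℝ := √2 ^ (-s) with hq
  have hp0 : 0 < p := by positivity
  have hp1 : p < 1 := rpow_lt_one_of_one_lt_of_neg (by norm_num) (by linarith)
  have hs2 : √2 < 2 := by
    rw [sqrt_lt' (by norm_num)]; norm_num
  have hs2' : (0 : ℝ) < √2 := by positivity
  have hpq : p < q := rpow_lt_rpow_of_neg hs2' hs2 (by linarith)
  set t := min (p / 4) ((q - p) / 4) with ht
  have ht0 : 0 < t := lt_min (by linarith) (by linarith)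
  have ht1 : t ≤ p / 4 := min_le_left _ _
  have ht2 : t ≤ (q - p) / 4 := min_le_right _ _
  have cid : ContinuousAt (fun δ : ℝ => δ) 0 := continuousAt_id
  have c1 : ContinuousAt (fun δ : ℝ => (2 + 2 * δ) ^ (-s)) 0 :=
    cont_rpow (by fun_prop) (by norm_num) _
  have c2 : ContinuousAt (fun δ : ℝ => (1 + 2 * δ) ^ (-s)) 0 :=
    cont_rpow (by fun_prop) (by norm_num) _
  have c3 : ContinuousAt (fun δ : ℝ => (√2 + 2 * δ) ^ (-s)) 0 :=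
    cont_rpow (by fun_prop) (by simp) _
  have c4 : ContinuousAt (fun δ : ℝ => (1 - δ) ^ (-s)) 0 :=
    cont_rpow (by fun_prop) (by norm_num) _
  have c5 : ContinuousAt (fun δ : ℝ => (2 - δ) ^ (-s)) 0 :=
    cont_rpow (by fun_prop) (by norm_num) _
  have e1 : ∀ᶠ δ in 𝓝[>] (0 : ℝ), 0 < δ := self_mem_nhdsWithin
  have e2 : ∀ᶠ δ in 𝓝[>] (0 : ℝ), δ < 1 / 8 :=
    ev_lt cid continuousAt_const (by norm_num)
  have e3 : ∀ᶠ δ in 𝓝[>] (0 : ℝ), p / 2 + t < (2 + 2 * δ) ^ (-s) :=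
    ev_lt continuousAt_const c1 (by simp only [mul_zero, add_zero, ← hp]; linarith)
  have e4 : ∀ᶠ δ in 𝓝[>] (0 : ℝ), 2 + 2 * (p / 2 + t) < 2 * (1 + 2 * δ) ^ (-s) + (√2 + 2 * δ) ^ (-s) :=
    ev_lt continuousAt_const ((c2.const_mul 2).add c3) (by
      simp only [mul_zero, add_zero, one_rpow, ← hq]; linarith)
  have e5 : ∀ᶠ δ in 𝓝[>] (0 : ℝ), 2 * δ < 6 ^ (-s⁻¹) :=
    ev_lt (by fun_prop) continuousAt_const (by simp only [mul_zero]; positivity)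
  have e6 : ∀ᶠ δ in 𝓝[>] (0 : ℝ), K / 2 * δ ^ 2 < 1 :=
    ev_lt (by fun_prop) continuousAt_const (by norm_num)
  have e7 : ∀ᶠ δ in 𝓝[>] (0 : ℝ), K / 2 * δ ^ 2 + ρ' * δ < p / 2 :=
    ev_lt (by fun_prop) continuousAt_const (by
      simp only [ne_eq, OfNat.ofNat_ne_zero, not_false_eq_true, zero_pow, mul_zero, add_zero]
      linarith)
  have e8 : ∀ᶠ δ in 𝓝[>] (0 : ℝ), p / 2 + ρ' * δ < p / 2 + t :=
    ev_lt (by fun_prop) continuousAt_const (by simp only [mul_zero, add_zero]; linarith)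
  have e9 : ∀ᶠ δ in 𝓝[>] (0 : ℝ), (1 - δ) ^ (-s) + 1 + (2 - δ) ^ (-s) - 2 - p / 2 < p / 2 + t :=
    ev_lt ((((c4.add continuousAt_const).add c5).sub continuousAt_const).sub continuousAt_const)
      continuousAt_const (by simp only [sub_zero, one_rpow, ← hp]; linarith)
  have e10 : ∀ᶠ δ in 𝓝[>] (0 : ℝ),
      0 < 2 * (1 + 2 * δ) ^ (-s) + (2 + 2 * δ) ^ (-s) - 2 - p / 2 - ρ' * δ :=
    ev_lt continuousAt_const (((((c2.const_mul 2).add c1).sub continuousAt_const).sub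
      continuousAt_const).sub (by fun_prop)) (by
        simp only [mul_zero, add_zero, one_rpow, ← hp, sub_zero]; linarith)
  obtain ⟨δ, h⟩ := (e1.and (e2.and (e3.and (e4.and (e5.and (e6.and (e7.and (e8.and
    (e9.and e10))))))))).exists
  obtain ⟨h1, h2, h3, h4, h5, h6, h7, h8, h9, h10⟩ := h
  refine ⟨p / 2 + t, δ, h1, h2, by linarith, h3, h4, ?_, h6, h7, h8, h9, h10⟩
  have h11 : (6 ^ (-s⁻¹) : ℝ) ^ (-s) < (2 * δ) ^ (-s) :=
    rpow_lt_rpow_of_neg (by positivity) h5 (by linarith)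
  have h12 : (6 ^ (-s⁻¹) : ℝ) ^ (-s) = 6 := by
    rw [← rpow_mul (by norm_num)]
    have : -s⁻¹ * -s = 1 := by field_simp
    rw [this, rpow_one]
  rwa [h12] at h11

end Crest.Agent.H12.Split
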