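import Crest.Prelude.Def_MultiMarginal

set_option autoImplicit false
open Real Set Filter MeasureTheory
open scoped Topology RealInnerProductSpace ContDiff ENNReal
open Crest.AnalysisR.OT

namespace Crest.Agent.H12.Split

section Det
variable {E : Type*} [NormedAddCommGroup E] [NormedSpace ℝ E] [FiniteDimensional ℝ E]

lemma contDiff_det {n : WithTop ℕ∞} : ContDiff ℝ n (fun A : E →L[ℝ] E => A.det) := by
  let b := Module.finBasis ℝ E
  have h1 : (fun A : E →L[ℝ] E => A.det) = fun A : E →L[ℝ] E =>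
      ∑ σ : Equiv.Perm (Fin (Module.finrank ℝ E)), ((Equiv.Perm.sign σ : ℤ) : ℝ) *
        ∏ i, b.repr (A (b i)) (σ i) := by
    funext A
    change LinearMap.det (A : E →ₗ[ℝ] E) = _
    rw [← LinearMap.det_toMatrix b, Matrix.det_apply']
    simp only [LinearMap.toMatrix_apply]
    rfl
  rw [h1]
  refine ContDiff.sum fun σ _ => contDiff_const.mul (contDiff_prod fun i _ => ?_)
  let ℓ : E →L[ℝ] ℝ := ((Finsupp.lapply (σ i)).comp b.repr.toLinearMap).toContinuousLinearMap
  have h2 : (fun A : E →L[ℝ] E => b.repr (A (b i)) (σ i)) =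
      fun A : E →L[ℝ] E => ℓ (ContinuousLinearMap.apply ℝ E (b i) A) := by
    funext A; rfl
  rw [h2]
  exact ℓ.contDiff.comp (ContinuousLinearMap.apply ℝ E (b i)).contDiff

end Det

variable {d : ℕ}

local notation "𝔼" => EuclideanSpace ℝ (Fin d)

/-- structure of good local diffeomorphisms -/
structure GoodDiffeo (T : OpenPartialHomeomorph 𝔼 𝔼) : Prop where
  cd : ∀ x ∈ T.source, ContDiffAt ℝ ω T x
  cds : ∀ y ∈ T.target, ContDiffAt ℝ ω T.symm y

lemma GoodDiffeo.det_ne {T : OpenPartialHomeomorph 𝔼 𝔼} (hT : GoodDiffeo T) {y : 𝔼}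
    (hy : y ∈ T.target) : (fderiv ℝ T.symm y).det ≠ 0 := by
  have h1 : HasFDerivAt T.symm (fderiv ℝ T.symm y) y :=
    ((hT.cds y hy).differentiableAt (by simp)).hasFDerivAt
  have h2 : HasFDerivAt T (fderiv ℝ T (T.symm y)) (T.symm y) :=
    ((hT.cd _ (T.map_target hy)).differentiableAt (by simp)).hasFDerivAt
  have h3 : HasFDerivAt (fun z => T (T.symm z)) ((fderiv ℝ T (T.symm y)).comp (fderiv ℝ T.symm y)) y :=
    h2.comp y h1
  have h4 : HasFDerivAt (fun z => T (T.symm z)) (ContinuousLinearMap.id ℝ 𝔼) y := by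
    refine (hasFDerivAt_id y).congr_of_eventuallyEq ?_
    filter_upwards [T.open_target.mem_nhds hy] with z hz using T.right_inv hz
  have h5 := h3.unique h4
  intro h0
  have h6 : (((fderiv ℝ T (T.symm y)).comp (fderiv ℝ T.symm y)).det) = 1 := by
    rw [h5]; exact LinearMap.det_id
  have h7 : (((fderiv ℝ T (T.symm y)).comp (fderiv ℝ T.symm y)).det) =
      (fderiv ℝ T (T.symm y)).det * (fderiv ℝ T.symm y).det :=
    LinearMap.det_comp _ _
  rw [h7, h0, mul_zero] at h6
  exact zero_ne_one h6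

open Classical in
/-- the pushed forward square-root density -/
noncomputable def pushD (T : OpenPartialHomeomorph 𝔼 𝔼) (q : 𝔼 → ℝ) (y : 𝔼) : ℝ :=
  if y ∈ T.target then q (T.symm y) * √|(fderiv ℝ T.symm y).det| else 0

lemma pushD_nonneg {T : OpenPartialHomeomorph 𝔼 𝔼} {q : 𝔼 → ℝ} (hq : ∀ x, 0 ≤ q x) (y : 𝔼) :
    0 ≤ pushD T q y := by
  unfold pushD
  split_ifs
  · exact mul_nonneg (hq _) (sqrt_nonneg _)
  · exact le_refl 0

lemma pushD_zero {T : OpenPartialHomeomorph 𝔼 𝔼} {q : 𝔼 → ℝ} {y : 𝔼} (hy : y ∉ T '' tsupport q) :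
    pushD T q y = 0 := by
  unfold pushD
  split_ifs with h
  · have : q (T.symm y) = 0 := by
      by_contra h0
      exact hy ⟨T.symm y, subset_tsupport q h0, T.right_inv h⟩
    rw [this, zero_mul]
  · rfl

lemma image_tsupport_compact {T : OpenPartialHomeomorph 𝔼 𝔼} {q : 𝔼 → ℝ} (hqc : HasCompactSupport q)
    (hqs : tsupport q ⊆ T.source) : IsCompact (T '' tsupport q) :=
  hqc.isCompact.image_of_continuousOn (T.continuousOn.mono hqs)

lemma pushD_contDiff {T : OpenPartialHomeomorph 𝔼 𝔼} (hT : GoodDiffeo T) {q : 𝔼 → ℝ}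
    (hq : ContDiff ℝ ∞ q) (hqc : HasCompactSupport q) (hqs : tsupport q ⊆ T.source) :
    ContDiff ℝ ∞ (pushD T q) := by
  have hK := image_tsupport_compact hqc hqs
  rw [contDiff_iff_contDiffAt]
  intro y
  by_cases hy : y ∈ T.target
  · have h1 : ContDiffAt ℝ ∞ (fun z => q (T.symm z) * √|(fderiv ℝ T.symm z).det|) y := by
      have hs : ContDiffAt ℝ ∞ T.symm y := (hT.cds y hy).of_le (by simp)
      have hs' : ContDiffAt ℝ ∞ (fderiv ℝ T.symm) y :=
        (hT.cds y hy).fderiv_right (m := ∞) (by simp)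
      have hdet : ContDiffAt ℝ ∞ (fun z => (fderiv ℝ T.symm z).det) y :=
        contDiff_det.contDiffAt.comp y hs'
      refine (hq.contDiffAt.comp y hs).mul ?_
      exact (hdet.abs (hT.det_ne hy)).sqrt (abs_ne_zero.2 (hT.det_ne hy))
    refine h1.congr_of_eventuallyEq ?_
    filter_upwards [T.open_target.mem_nhds hy] with z hz
    unfold pushD
    rw [if_pos hz]
  · have h2 : y ∉ T '' tsupport q := by
      rintro ⟨x, hx, rfl⟩
      exact hy (T.map_source (hqs hx))
    have h3 : (T '' tsupport q)ᶜ ∈ 𝓝 y := hK.isClosed.isOpen_compl.mem_nhds h2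
    refine (contDiffAt_const (c := (0 : ℝ))).congr_of_eventuallyEq ?_
    filter_upwards [h3] with z hz
    exact pushD_zero hz

open Classical in
/-- a globally measurable version of the map -/
noncomputable def totMap (T : OpenPartialHomeomorph 𝔼 𝔼) : 𝔼 → 𝔼 :=
  T.source.piecewise T (fun _ => 0)

open Classical in
lemma totMap_eq {T : OpenPartialHomeomorph 𝔼 𝔼} {x : 𝔼} (hx : x ∈ T.source) :
    totMap T x = T x := by
  unfold totMap; exact Set.piecewise_eq_of_mem _ _ _ hx

open Classical in
lemma measurable_totMap (T : OpenPartialHomeomorph 𝔼 𝔼) : Measurable (totMap T) := by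
  unfold totMap
  exact T.continuousOn.measurable_piecewise continuousOn_const T.open_source.measurableSet

lemma pushD_of_mem {T : OpenPartialHomeomorph 𝔼 𝔼} {q : 𝔼 → ℝ} {y : 𝔼} (hy : y ∈ T.target) :
    pushD T q y = q (T.symm y) * √|(fderiv ℝ T.symm y).det| := by
  unfold pushD; rw [if_pos hy]

lemma pushD_of_notMem {T : OpenPartialHomeomorph 𝔼 𝔼} {q : 𝔼 → ℝ} {y : 𝔼} (hy : y ∉ T.target) :
    pushD T q y = 0 := by
  unfold pushD; rw [if_neg hy]

open Classical in
theorem map_totMap {T : OpenPartialHomeomorph 𝔼 𝔼} (hT : GoodDiffeo T) {q : 𝔼 → ℝ}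
    (hq : ContDiff ℝ ∞ q) (hqc : HasCompactSupport q) (hqs : tsupport q ⊆ T.source) :
    (measOfDensity (fun x => q x ^ 2)).map (totMap T) = measOfDensity (fun y => pushD T q y ^ 2) := by
  ext D hD
  rw [Measure.map_apply (measurable_totMap T) hD]
  unfold measOfDensity
  have hm1 : Measurable (fun x => ENNReal.ofReal (q x ^ 2)) := by
    have := hq.continuous.measurable; fun_prop
  have hm2 : Measurable (fun x => ENNReal.ofReal (pushD T q x ^ 2)) := by
    have := (pushD_contDiff hT hq hqc hqs).continuous.measurable; fun_prop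
  have hD' : MeasurableSet (totMap T ⁻¹' D) := measurable_totMap T hD
  rw [withDensity_apply _ hD', withDensity_apply _ hD, ← lintegral_indicator hD',
    ← lintegral_indicator hD]
  have hz : ∀ x, x ∉ T.source → q x = 0 := by
    intro x hx
    by_contra h0
    exact hx (hqs (subset_tsupport q h0))
  have e1 : ∫⁻ x, (totMap T ⁻¹' D).indicator (fun x => ENNReal.ofReal (q x ^ 2)) x =
      ∫⁻ x in T.source, (totMap T ⁻¹' D).indicator (fun x => ENNReal.ofReal (q x ^ 2)) x := by
    rw [← lintegral_indicator T.open_source.measurableSet]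
    congr 1
    funext x
    by_cases hx : x ∈ T.source
    · rw [Set.indicator_of_mem hx]
    · rw [Set.indicator_of_notMem hx]
      rw [Set.indicator_apply]
      split_ifs
      · rw [hz x hx]; simp
      · rfl
  have e2 : T.source = T.symm '' T.target := by
    rw [T.symm_image_target_eq_source]
  have hfd : ∀ y ∈ T.target, HasFDerivWithinAt T.symm (fderiv ℝ T.symm y) T.target y := fun y hy =>
    ((hT.cds y hy).differentiableAt (by simp)).hasFDerivAt.hasFDerivWithinAt
  have hinj : InjOn T.symm T.target := T.symm.injOn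
  rw [e1, e2, lintegral_image_eq_lintegral_abs_det_fderiv_mul volume T.open_target.measurableSet hfd hinj]
  rw [← lintegral_indicator T.open_target.measurableSet]
  congr 1
  funext y
  by_cases hy : y ∈ T.target
  · rw [Set.indicator_of_mem hy]
    have h1 : totMap T (T.symm y) = y := by
      rw [totMap_eq (T.map_target hy), T.right_inv hy]
    have h2 : (T.symm y ∈ totMap T ⁻¹' D) ↔ y ∈ D := by
      rw [mem_preimage, h1]
    by_cases hyD : y ∈ D
    · rw [Set.indicator_of_mem (h2.2 hyD), Set.indicator_of_mem hyD]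
      simp only
      rw [pushD_of_mem hy, ← ENNReal.ofReal_mul (abs_nonneg _), mul_pow, sq_sqrt (abs_nonneg _),
        mul_comm]
    · rw [Set.indicator_of_notMem (fun h => hyD (h2.1 h)), Set.indicator_of_notMem hyD, mul_zero]
  · rw [Set.indicator_of_notMem hy]
    rw [Set.indicator_apply]
    simp only
    rw [pushD_of_notMem hy]
    simp

end Crest.Agent.H12.Split
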