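import Crest.Agent.H12.SplitStruct
import Crest.Agent.H12.SplitDensity
import Crest.Agent.H12.SplitDelta

set_option autoImplicit false
open Real Set Filter MeasureTheory
open scoped Topology RealInnerProductSpace ContDiff ENNReal
open Crest.AnalysisR.OT

namespace Crest.Agent.H12.Split

section Cost
variable {E : Type*} [NormedAddCommGroup E]

/-- real triple cost -/
noncomputable def cR (s : ℝ) (x y z : E) : ℝ :=
  ‖x - y‖ ^ (-s) + ‖x - z‖ ^ (-s) + ‖y - z‖ ^ (-s)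

lemma cR_swap23 (s : ℝ) (x y z : E) : cR s x z y = cR s x y z := by
  unfold cR; rw [norm_sub_rev z y]; ring

lemma cR_swap12 (s : ℝ) (x y z : E) : cR s y x z = cR s x y z := by
  unfold cR; rw [norm_sub_rev y x]; ring

lemma cR_rot (s : ℝ) (x y z : E) : cR s z x y = cR s x y z := by
  rw [cR_swap12, cR_swap23]

lemma pairCost_ne {s : ℝ} {x y : E} (h : x ≠ y) :
    pairCost s x y = ENNReal.ofReal (‖x - y‖ ^ (-s)) := by
  unfold pairCost
  exact ENNReal.ofReal_rpow_of_pos (norm_pos_iff.2 (sub_ne_zero.2 h))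

lemma pairCost_self {s : ℝ} (hs : 0 < s) (x : E) : pairCost s x x = ⊤ := by
  unfold pairCost
  rw [sub_self, norm_zero, ENNReal.ofReal_zero, ENNReal.zero_rpow_of_neg (by linarith)]

lemma tripleCost_ne {s : ℝ} {x y z : E} (h1 : x ≠ y) (h2 : x ≠ z) (h3 : y ≠ z) :
    tripleCost s (x, y, z) = ENNReal.ofReal (cR s x y z) := by
  unfold tripleCost cR
  simp only
  rw [pairCost_ne h1, pairCost_ne h2, pairCost_ne h3, ENNReal.ofReal_add (by positivity) (by positivity),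
    ENNReal.ofReal_add (by positivity) (by positivity)]

lemma tripleCost_top {s : ℝ} (hs : 0 < s) {x y z : E} (h : x = y ∨ x = z ∨ y = z) :
    tripleCost s (x, y, z) = ⊤ := by
  unfold tripleCost
  simp only
  rcases h with rfl | rfl | rfl
  · rw [pairCost_self hs]; simp
  · rw [pairCost_self hs]; simp
  · rw [pairCost_self hs]; simp

lemma pairCost_symm (s : ℝ) (x y : E) : pairCost s x y = pairCost s y x := by
  unfold pairCost; rw [norm_sub_rev]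

lemma tripleCost_swap23 (s : ℝ) (x y z : E) : tripleCost s (x, z, y) = tripleCost s (x, y, z) := by
  unfold tripleCost; simp only; rw [pairCost_symm s z y]; ring

lemma tripleCost_swap12 (s : ℝ) (x y z : E) : tripleCost s (y, x, z) = tripleCost s (x, y, z) := by
  unfold tripleCost; simp only; rw [pairCost_symm s y x]; ring

end Cost

variable {d : ℕ}

local notation "𝔼" => EuclideanSpace ℝ (Fin d)

/-- Matched triples seen from the central cluster point `x`. -/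
def Mat (R : 𝔼 → 𝔼) (Tb Tc : 𝔼 → 𝔼) (x y z : 𝔼) : Prop :=
  (y = Tb x ∧ z = Tc x) ∨ (z = Tb x ∧ y = Tc x) ∨
  (R y = Tb (R x) ∧ R z = Tc (R x)) ∨ (R z = Tb (R x) ∧ R y = Tc (R x))

lemma Mat.swap {R : 𝔼 → 𝔼} {Tb Tc : 𝔼 → 𝔼} {x y z : 𝔼} (h : Mat R Tb Tc x y z) :
    Mat R Tb Tc x z y := by
  unfold Mat at *
  tauto

/-- everything the measure theoretic part needs -/
structure Core (d : ℕ) (s : ℝ) where
  R : EuclideanSpace ℝ (Fin d) ≃ₗᵢ[ℝ] EuclideanSpace ℝ (Fin d)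
  RR : ∀ x, R (R x) = x
  Tb : OpenPartialHomeomorph (EuclideanSpace ℝ (Fin d)) (EuclideanSpace ℝ (Fin d))
  Tc : OpenPartialHomeomorph (EuclideanSpace ℝ (Fin d)) (EuclideanSpace ℝ (Fin d))
  η : ℝ
  hη : 0 < η
  srcb : Tb.source = Metric.ball 0 η
  srcc : Tc.source = Metric.ball 0 η
  gb : GoodDiffeo Tb
  gc : GoodDiffeo Tc
  dAB : ∀ x ∈ Metric.ball (0 : EuclideanSpace ℝ (Fin d)) η, x ∉ Tb.target
  dAC : ∀ x ∈ Metric.ball (0 : EuclideanSpace ℝ (Fin d)) η, x ∉ Tc.target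
  dBC : ∀ x ∈ Tb.target, x ∉ Tc.target
  dBRB : ∀ x ∈ Tb.target, R x ∉ Tb.target
  dBRC : ∀ x ∈ Tb.target, R x ∉ Tc.target
  dCRC : ∀ x ∈ Tc.target, R x ∉ Tc.target
  u : EuclideanSpace ℝ (Fin d) → ℝ
  hum : Measurable u
  hu0 : ∀ x, 0 ≤ u x
  hu2 : ∀ x, u x ≤ 2
  huR : ∀ x, u (R x) = u x
  P2 : ∀ x ∈ Metric.ball (0 : EuclideanSpace ℝ (Fin d)) η,
    ENNReal.ofReal (u x) + ENNReal.ofReal (u (Tb x)) + ENNReal.ofReal (u (Tc x)) =
      tripleCost s (x, Tb x, Tc x)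
  P13 : ∀ x y z,
    (x ∈ Metric.ball 0 η ∨ x ∈ Tb.target ∨ x ∈ Tc.target ∨ R x ∈ Tb.target ∨ R x ∈ Tc.target) →
    (y ∈ Metric.ball 0 η ∨ y ∈ Tb.target ∨ y ∈ Tc.target ∨ R y ∈ Tb.target ∨ R y ∈ Tc.target) →
    (z ∈ Metric.ball 0 η ∨ z ∈ Tb.target ∨ z ∈ Tc.target ∨ R z ∈ Tb.target ∨ R z ∈ Tc.target) →
    ENNReal.ofReal (u x) + ENNReal.ofReal (u y) + ENNReal.ofReal (u z) ≤ tripleCost s (x, y, z) ∧
    (ENNReal.ofReal (u x) + ENNReal.ofReal (u y) + ENNReal.ofReal (u z) = tripleCost s (x, y, z) →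
      (x ∈ Metric.ball 0 η ∧ Mat R Tb Tc x y z) ∨ (y ∈ Metric.ball 0 η ∧ Mat R Tb Tc y x z) ∨
      (z ∈ Metric.ball 0 η ∧ Mat R Tb Tc z x y))
  P4 : ∀ ε : ℝ, 0 < ε → ∃ θ : ℝ, 0 < θ ∧ ∀ x ∈ Metric.ball (0 : EuclideanSpace ℝ (Fin d)) η,
    ∀ x' ∈ Metric.ball (0 : EuclideanSpace ℝ (Fin d)) η, ‖x - x'‖ ≤ θ →
      tripleCost s (x, Tb x', Tc x') ≤
        ENNReal.ofReal (u x) + ENNReal.ofReal (u (Tb x')) + ENNReal.ofReal (u (Tc x')) +
          ENNReal.ofReal ε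

end Crest.Agent.H12.Split
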