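import Crest.Agent.H12.SplitCore

set_option autoImplicit false
open Real Set Filter MeasureTheory
open scoped Topology RealInnerProductSpace ContDiff ENNReal
open Crest.AnalysisR.OT

namespace Crest.Agent.H12.Split

variable {d : ℕ}

local notation "𝔼" => EuclideanSpace ℝ (Fin d)

/-- abstract inequality on clusters, real version -/
lemma cluster_ineq {s : ℝ} (hs : 0 < s) {e₀ e₁ : 𝔼} (he₀ : ‖e₀‖ = 1) (he₁ : ‖e₁‖ = 1)
    (he01 : ⟪e₀, e₁⟫ = 0)
    {δ β₁ : ℝ} (hδ0 : 0 < δ) (hδ : δ < 1 / 8) (hβ : β₁ ≤ 1)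
    (d1 : β₁ < (2 + 2 * δ) ^ (-s))
    (d2 : 2 + 2 * β₁ < 2 * (1 + 2 * δ) ^ (-s) + (√2 + 2 * δ) ^ (-s))
    (d3 : 6 < (2 * δ) ^ (-s))
    {A B C RB RC : Set 𝔼} {u : 𝔼 → ℝ} {M : 𝔼 → 𝔼 → 𝔼 → Prop} (hMs : ∀ x y z, M x y z → M x z y)
    (hA : ∀ x ∈ A, ‖x‖ < δ) (hB : ∀ x ∈ B, ‖x - e₀‖ < δ) (hC : ∀ x ∈ C, ‖x + e₀‖ < δ)
    (hRB : ∀ x ∈ RB, ‖x - e₁‖ < δ) (hRC : ∀ x ∈ RC, ‖x + e₁‖ < δ)
    (uA : ∀ x ∈ A, u x ≤ 2) (uB : ∀ x ∈ B, u x ≤ β₁) (uC : ∀ x ∈ C, u x ≤ β₁)
    (uRB : ∀ x ∈ RB, u x ≤ β₁) (uRC : ∀ x ∈ RC, u x ≤ β₁)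
    (L0 : ∀ x ∈ A, ∀ y ∈ B, ∀ z ∈ C, u x + u y + u z ≤ cR s x y z ∧
      (u x + u y + u z = cR s x y z → M x y z))
    (L1 : ∀ x ∈ A, ∀ y ∈ RB, ∀ z ∈ RC, u x + u y + u z ≤ cR s x y z ∧
      (u x + u y + u z = cR s x y z → M x y z))
    {x y z : 𝔼} (hx : x ∈ A ∨ x ∈ B ∨ x ∈ C ∨ x ∈ RB ∨ x ∈ RC)
    (hy : y ∈ A ∨ y ∈ B ∨ y ∈ C ∨ y ∈ RB ∨ y ∈ RC)
    (hz : z ∈ A ∨ z ∈ B ∨ z ∈ C ∨ z ∈ RB ∨ z ∈ RC)
    (hxy : x ≠ y) (hxz : x ≠ z) (hyz : y ≠ z) :
    u x + u y + u z ≤ cR s x y z ∧ (u x + u y + u z = cR s x y z →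
      (x ∈ A ∧ M x y z) ∨ (y ∈ A ∧ M y x z) ∨ (z ∈ A ∧ M z x y)) := by
  have pos : ∀ {v w : 𝔼}, v ≠ w → 0 < ‖v - w‖ := fun h => norm_pos_iff.2 (sub_ne_zero.2 h)
  have low : ∀ {v w : 𝔼} {t : ℝ}, v ≠ w → ‖v - w‖ ≤ t → t ^ (-s) ≤ ‖v - w‖ ^ (-s) :=
    fun h1 h2 => rpow_le_rpow_of_nonpos (pos h1) h2 (by linarith)
  have nn : ∀ v w : 𝔼, 0 ≤ ‖v - w‖ ^ (-s) := fun v w => by positivity
  -- the non central clusters
  let N : 𝔼 → Prop := fun x => x ∈ B ∨ x ∈ C ∨ x ∈ RB ∨ x ∈ RC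
  have uN : ∀ x, N x → u x ≤ β₁ := by
    rintro x (h | h | h | h)
    · exact uB x h
    · exact uC x h
    · exact uRB x h
    · exact uRC x h
  have nN : ∀ x, N x → ‖x‖ ≤ 1 + δ := by
    rintro x (h | h | h | h)
    · have := hB x h
      calc ‖x‖ = ‖(x - e₀) + e₀‖ := by congr 1; abel
        _ ≤ ‖x - e₀‖ + ‖e₀‖ := norm_add_le _ _
        _ ≤ _ := by rw [he₀]; linarith
    · have := hC x h
      calc ‖x‖ = ‖(x + e₀) - e₀‖ := by congr 1; abel
        _ ≤ ‖x + e₀‖ + ‖e₀‖ := norm_sub_le _ _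
        _ ≤ _ := by rw [he₀]; linarith
    · have := hRB x h
      calc ‖x‖ = ‖(x - e₁) + e₁‖ := by congr 1; abel
        _ ≤ ‖x - e₁‖ + ‖e₁‖ := norm_add_le _ _
        _ ≤ _ := by rw [he₁]; linarith
    · have := hRC x h
      calc ‖x‖ = ‖(x + e₁) - e₁‖ := by congr 1; abel
        _ ≤ ‖x + e₁‖ + ‖e₁‖ := norm_sub_le _ _
        _ ≤ _ := by rw [he₁]; linarith
  have uall : ∀ x, (x ∈ A ∨ N x) → u x ≤ 2 := by
    rintro x (h | h)
    · exact uA x h
    · linarith [uN x h]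
  -- three non central points
  have c3 : ∀ x y z, N x → N y → N z → x ≠ y → x ≠ z → y ≠ z → u x + u y + u z < cR s x y z := by
    intro x y z hx hy hz hxy hxz hyz
    have k : ∀ v w, N v → N w → ‖v - w‖ ≤ 2 + 2 * δ := fun v w hv hw => by
      have := norm_sub_le v w
      linarith [nN v hv, nN w hw]
    have := low hxy (k x y hx hy)
    have := low hxz (k x z hx hz)
    have := low hyz (k y z hy hz)
    have := uN x hx
    have := uN y hy
    have := uN z hz
    unfold cR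
    linarith
  -- two points in the same small ball
  have close : ∀ v w e : 𝔼, v ≠ w → ‖v - e‖ < δ → ‖w - e‖ < δ → 6 < ‖v - w‖ ^ (-s) := by
    intro v w e hvw hv hw
    refine lt_of_lt_of_le d3 (low hvw ?_)
    have : v - w = (v - e) - (w - e) := by abel
    rw [this]
    have := norm_sub_le (v - e) (w - e)
    linarith
  have c2 : ∀ x y z e : 𝔼, (x ∈ A ∨ N x) → (y ∈ A ∨ N y) → (z ∈ A ∨ N z) → x ≠ y →
      ‖x - e‖ < δ → ‖y - e‖ < δ → u x + u y + u z < cR s x y z := by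
    intro x y z e hx hy hz hxy h1 h2
    have := close x y e hxy h1 h2
    have := nn x z
    have := nn y z
    have := uall x hx
    have := uall y hy
    have := uall z hz
    unfold cR
    linarith
  -- cross
  have cross : ∀ x y z : 𝔼, x ∈ A → (y ∈ B ∨ y ∈ C) → (z ∈ RB ∨ z ∈ RC) → x ≠ y → x ≠ z → y ≠ z →
      u x + u y + u z < cR s x y z := by
    intro x y z hx hy hz hxy hxz hyz
    obtain ⟨v, hv, hyv⟩ : ∃ v : 𝔼, (v = e₀ ∨ v = -e₀) ∧ ‖y - v‖ < δ := by
      rcases hy with h | h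
      · exact ⟨e₀, Or.inl rfl, hB y h⟩
      · exact ⟨-e₀, Or.inr rfl, by rw [sub_neg_eq_add]; exact hC y h⟩
    obtain ⟨w, hw, hzw⟩ : ∃ w : 𝔼, (w = e₁ ∨ w = -e₁) ∧ ‖z - w‖ < δ := by
      rcases hz with h | h
      · exact ⟨e₁, Or.inl rfl, hRB z h⟩
      · exact ⟨-e₁, Or.inr rfl, by rw [sub_neg_eq_add]; exact hRC z h⟩
    have hNy : N y := by rcases hy with h | h; exacts [Or.inl h, Or.inr (Or.inl h)]
    have hNz : N z := by
      rcases hz with h | h; exacts [Or.inr (Or.inr (Or.inl h)), Or.inr (Or.inr (Or.inr h))]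
    have hvw : ‖v - w‖ = √2 := by
      have h1 : ‖v - w‖ ^ 2 = 2 := by
        have h2 : ‖v‖ = 1 := by rcases hv with rfl | rfl <;> simp [he₀]
        have h3 : ‖w‖ = 1 := by rcases hw with rfl | rfl <;> simp [he₁]
        have h4 : ⟪v, w⟫ = 0 := by
          rcases hv with rfl | rfl <;> rcases hw with rfl | rfl <;> simp [he01]
        rw [norm_sub_sq_real, h2, h3, h4]; norm_num
      rw [← h1, sqrt_sq (norm_nonneg _)]
    have n1 : ‖y - z‖ ≤ √2 + 2 * δ := by
      have : y - z = (y - v) + (v - w) - (z - w) := by abel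
      rw [this]
      have h5 := norm_sub_le ((y - v) + (v - w)) (z - w)
      have h6 := norm_add_le (y - v) (v - w)
      rw [hvw] at h6
      linarith
    have n2 : ∀ t : 𝔼, N t → ‖x - t‖ ≤ 1 + 2 * δ := by
      intro t ht
      have h7 := norm_sub_le x t
      have h8 := nN t ht
      have h9 := hA x hx
      linarith
    have := low hyz n1
    have := low hxy (n2 y hNy)
    have := low hxz (n2 z hNz)
    have := uA x hx
    have := uN y hNy
    have := uN z hNz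
    unfold cR
    linarith
  -- one central, two non central
  have c1 : ∀ x y z : 𝔼, x ∈ A → N y → N z → x ≠ y → x ≠ z → y ≠ z →
      u x + u y + u z ≤ cR s x y z ∧ (u x + u y + u z = cR s x y z → M x y z) := by
    intro x y z hx hy hz hxy hxz hyz
    have strict : u x + u y + u z < cR s x y z →
        u x + u y + u z ≤ cR s x y z ∧ (u x + u y + u z = cR s x y z → M x y z) :=
      fun h => ⟨h.le, fun h' => absurd h' h.ne⟩
    have same : ∀ e : 𝔼, ‖y - e‖ < δ → ‖z - e‖ < δ → u x + u y + u z < cR s x y z := by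
      intro e h1 h2
      have h3 := c2 y z x e (Or.inr hy) (Or.inr hz) (Or.inl hx) hyz h1 h2
      have h4 : cR s y z x = cR s x y z := by rw [cR_swap23, cR_swap12]
      linarith
    have crossL : (y ∈ B ∨ y ∈ C) → (z ∈ RB ∨ z ∈ RC) → u x + u y + u z < cR s x y z :=
      fun h1 h2 => cross x y z hx h1 h2 hxy hxz hyz
    have crossR : (z ∈ B ∨ z ∈ C) → (y ∈ RB ∨ y ∈ RC) → u x + u y + u z < cR s x y z := by
      intro h1 h2
      have := cross x z y hx h1 h2 hxz hxy hyz.symm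
      rw [cR_swap23] at this
      linarith
    rcases id hy with h | h | h | h <;> rcases id hz with h' | h' | h' | h'
    · exact strict (same e₀ (hB y h) (hB z h'))
    · exact L0 x hx y h z h'
    · exact strict (crossL (Or.inl h) (Or.inl h'))
    · exact strict (crossL (Or.inl h) (Or.inr h'))
    · have := L0 x hx z h' y h
      rw [cR_swap23] at this
      exact ⟨by linarith [this.1], fun h'' => hMs _ _ _ (this.2 (by linarith))⟩
    · refine strict (same (-e₀) ?_ ?_)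
      · rw [sub_neg_eq_add]; exact hC y h
      · rw [sub_neg_eq_add]; exact hC z h'
    · exact strict (crossL (Or.inr h) (Or.inl h'))
    · exact strict (crossL (Or.inr h) (Or.inr h'))
    · exact strict (crossR (Or.inl h') (Or.inl h))
    · exact strict (crossR (Or.inr h') (Or.inl h))
    · exact strict (same e₁ (hRB y h) (hRB z h'))
    · exact L1 x hx y h z h'
    · exact strict (crossR (Or.inl h') (Or.inr h))
    · exact strict (crossR (Or.inr h') (Or.inr h))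
    · have := L1 x hx z h' y h
      rw [cR_swap23] at this
      exact ⟨by linarith [this.1], fun h'' => hMs _ _ _ (this.2 (by linarith))⟩
    · refine strict (same (-e₁) ?_ ?_)
      · rw [sub_neg_eq_add]; exact hRC y h
      · rw [sub_neg_eq_add]; exact hRC z h'
  have A0 : ∀ x ∈ A, ‖x - 0‖ < δ := fun x hx => by rw [sub_zero]; exact hA x hx
  have strict : u x + u y + u z < cR s x y z →
      u x + u y + u z ≤ cR s x y z ∧ (u x + u y + u z = cR s x y z →
        (x ∈ A ∧ M x y z) ∨ (y ∈ A ∧ M y x z) ∨ (z ∈ A ∧ M z x y)) :=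
      fun h => ⟨h.le, fun h' => absurd h' h.ne⟩
  change x ∈ A ∨ N x at hx
  change y ∈ A ∨ N y at hy
  change z ∈ A ∨ N z at hz
  rcases id hx with hxA | hxN
  · rcases id hy with hyA | hyN
    · exact strict (c2 x y z 0 hx hy hz hxy (A0 x hxA) (A0 y hyA))
    · rcases id hz with hzA | hzN
      · refine strict ?_
        have := c2 x z y 0 hx hz hy hxz (A0 x hxA) (A0 z hzA)
        rw [cR_swap23] at this
        linarith
      · have := c1 x y z hxA hyN hzN hxy hxz hyz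
        exact ⟨this.1, fun h => Or.inl ⟨hxA, this.2 h⟩⟩
  · rcases id hy with hyA | hyN
    · rcases id hz with hzA | hzN
      · refine strict ?_
        have := c2 y z x 0 hy hz hx hyz (A0 y hyA) (A0 z hzA)
        rw [cR_swap23, cR_swap12] at this
        linarith
      · have := c1 y x z hyA hxN hzN hxy.symm hyz hxz
        rw [cR_swap12] at this
        exact ⟨by linarith [this.1], fun h => Or.inr (Or.inl ⟨hyA, this.2 (by linarith)⟩)⟩
    · rcases id hz with hzA | hzN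
      · have := c1 z x y hzA hxN hyN hxz.symm hyz.symm hxy
        rw [cR_rot] at this
        exact ⟨by linarith [this.1], fun h => Or.inr (Or.inr ⟨hzA, this.2 (by linarith)⟩)⟩
      · exact strict (c3 x y z hxN hyN hzN hxy hxz hyz)

end Crest.Agent.H12.Split
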