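import Crest.Agent.H12.SplitCoreEx

set_option autoImplicit false
open Real Set Filter MeasureTheory
open scoped Topology RealInnerProductSpace ContDiff ENNReal
open Crest.AnalysisR.OT

namespace Crest.Agent.H12.Split

variable {d : ℕ}

local notation "𝔼" => EuclideanSpace ℝ (Fin d)

lemma abs_coord_le (x : 𝔼) (i : Fin d) : |x i| ≤ ‖x‖ := by
  rw [← Real.norm_eq_abs]; exact PiLp.norm_apply_le x i

/-- the swap isometry -/
noncomputable def swapR (i j : Fin d) : 𝔼 ≃ₗᵢ[ℝ] 𝔼 :=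
    LinearIsometryEquiv.piLpCongrLeft 2 ℝ ℝ (Equiv.swap i j)

lemma swapR_apply (i j : Fin d) (x : 𝔼) (k : Fin d) : (swapR i j x) k = x (Equiv.swap i j k) := by
  unfold swapR
  rw [LinearIsometryEquiv.piLpCongrLeft_apply]
  rfl

lemma swapR_swapR (i j : Fin d) (x : 𝔼) : swapR i j (swapR i j x) = x := by
  ext k; rw [swapR_apply, swapR_apply]; simp

section Potential
variable (s K : ℝ) (r e₀ : EuclideanSpace ℝ (Fin d))
  (Tb Tc : OpenPartialHomeomorph (EuclideanSpace ℝ (Fin d)) (EuclideanSpace ℝ (Fin d)))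
  (R : EuclideanSpace ℝ (Fin d) ≃ₗᵢ[ℝ] EuclideanSpace ℝ (Fin d))
  (A : Set (EuclideanSpace ℝ (Fin d)))

noncomputable def uAf (x : 𝔼) : ℝ := 2 - K / 2 * ‖x‖ ^ 2

noncomputable def uCf (z : 𝔼) : ℝ := 2 ^ (-s) / 2 - K / 2 * ‖z + e₀‖ ^ 2 + ⟪r, z + e₀⟫

noncomputable def uBf (y : 𝔼) : ℝ :=
  cR s (totMap Tb.symm y) y (totMap Tc (totMap Tb.symm y)) - uAf K (totMap Tb.symm y)
    - uCf s K r e₀ (totMap Tc (totMap Tb.symm y))

open Classical in
noncomputable def uf (x : 𝔼) : ℝ :=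
  if x ∈ A then uAf K x else if x ∈ Tb.target then uBf s K r e₀ Tb Tc x else
  if x ∈ Tc.target then uCf s K r e₀ x else
  if R x ∈ Tb.target then uBf s K r e₀ Tb Tc (R x) else
  if R x ∈ Tc.target then uCf s K r e₀ (R x) else 0

lemma measurable_cR {s : ℝ} {F G H : 𝔼 → 𝔼} (hF : Measurable F) (hG : Measurable G)
    (hH : Measurable H) : Measurable (fun x => cR s (F x) (G x) (H x)) := by
  unfold cR; fun_prop

lemma measurable_uAf : Measurable (uAf (d := d) K) := by unfold uAf; fun_prop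

lemma measurable_uCf : Measurable (uCf s K r e₀) := by unfold uCf; fun_prop

lemma measurable_uBf : Measurable (uBf s K r e₀ Tb Tc) := by
  unfold uBf
  have h1 := measurable_totMap Tb.symm
  have h2 : Measurable (fun y => totMap Tc (totMap Tb.symm y)) := (measurable_totMap Tc).comp h1
  exact ((measurable_cR h1 measurable_id h2).sub ((measurable_uAf K).comp h1)).sub
    ((measurable_uCf s K r e₀).comp h2)

lemma measurable_uf (hA : MeasurableSet A) : Measurable (uf s K r e₀ Tb Tc R A) := by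
  unfold uf
  have hR : Measurable R := R.continuous.measurable
  refine Measurable.ite hA (measurable_uAf K) (Measurable.ite Tb.open_target.measurableSet
    (measurable_uBf s K r e₀ Tb Tc) (Measurable.ite Tc.open_target.measurableSet
    (measurable_uCf s K r e₀) (Measurable.ite (hR Tb.open_target.measurableSet)
    ((measurable_uBf s K r e₀ Tb Tc).comp hR) (Measurable.ite (hR Tc.open_target.measurableSet)
    ((measurable_uCf s K r e₀).comp hR) measurable_const))))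

end Potential

lemma cR_isom (s : ℝ) (R : 𝔼 ≃ₗᵢ[ℝ] 𝔼) (x y z : 𝔼) : cR s (R x) (R y) (R z) = cR s x y z := by
  unfold cR
  rw [← map_sub, ← map_sub, ← map_sub, R.norm_map, R.norm_map, R.norm_map]

set_option maxHeartbeats 2000000 in
theorem exists_core (d : ℕ) (hd : 2 ≤ d) (s : ℝ) (hs : 0 < s) : Nonempty (Core d s) := by
  classical
  set i₀ : Fin d := ⟨0, by omega⟩ with hi₀
  set i₁ : Fin d := ⟨1, by omega⟩ with hi₁
  have hi01 : i₀ ≠ i₁ := by rw [hi₀, hi₁]; simp [Fin.ext_iff]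
  set e₀ : EuclideanSpace ℝ (Fin d) := EuclideanSpace.single i₀ (1 : ℝ) with he₀def
  set e₁ : EuclideanSpace ℝ (Fin d) := EuclideanSpace.single i₁ (1 : ℝ) with he₁def
  have he₀ : ‖e₀‖ = 1 := by rw [he₀def]; simp
  have he₁ : ‖e₁‖ = 1 := by rw [he₁def]; simp
  have he01 : ⟪e₀, e₁⟫ = 0 := by
    rw [he₀def, he₁def, EuclideanSpace.inner_single_left]
    simp [hi01]
  have he0c0 : e₀ i₀ = 1 := by rw [he₀def]; simp
  have he0c1 : e₀ i₁ = 0 := by rw [he₀def]; simp [hi01]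
  set R : EuclideanSpace ℝ (Fin d) ≃ₗᵢ[ℝ] EuclideanSpace ℝ (Fin d) := swapR i₀ i₁ with hR
  have hRR : ∀ x, R (R x) = x := swapR_swapR i₀ i₁
  have hRc0 : ∀ x, (R x) i₀ = x i₁ := fun x => by rw [hR, swapR_apply, Equiv.swap_apply_left]
  have hRc1 : ∀ x, (R x) i₁ = x i₀ := fun x => by rw [hR, swapR_apply, Equiv.swap_apply_right]
  have hRe₀ : R e₀ = e₁ := by
    ext k
    rw [hR, swapR_apply, he₀def, he₁def]
    by_cases h0 : k = i₀
    · subst h0; simp [hi01, Equiv.swap_apply_left]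
    · by_cases h1 : k = i₁
      · subst h1; simp [Equiv.swap_apply_right]
      · rw [Equiv.swap_apply_of_ne_of_ne h0 h1]; simp [h0, h1]
  have hRe₁ : R e₁ = e₀ := by rw [← hRe₀, hRR]
  obtain ⟨K, hK, r, T₂, T₃, hsrc, h0, hT20, hT30, hc2, hc3, hc2s, hc3s, hglob⟩ :=
    local_structure hs he₀
  obtain ⟨β₁, δ, hδ0, hδ, hβ, d1, d2, d3, d4, d5, d6, d7, d8⟩ := exists_delta hs K ‖r‖
  have hr0 : 0 ≤ ‖r‖ := norm_nonneg r
  set p : ℝ := 2 ^ (-s) with hp
  have hp0 : 0 < p := by positivity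
  -- choose η
  have ev : ∀ᶠ x in 𝓝 (0 : EuclideanSpace ℝ (Fin d)),
      x ∈ T₂.source ∧ ‖T₂ x - e₀‖ < δ ∧ ‖T₃ x + e₀‖ < δ ∧ ‖x‖ < δ := by
    have c1 : ContinuousAt (fun x => ‖T₂ x - e₀‖) 0 :=
      ((T₂.continuousAt h0).sub continuousAt_const).norm
    have c2 : ContinuousAt (fun x => ‖T₃ x + e₀‖) 0 :=
      ((T₃.continuousAt (hsrc ▸ h0)).add continuousAt_const).norm
    have e1 : ∀ᶠ x in 𝓝 (0 : EuclideanSpace ℝ (Fin d)), ‖T₂ x - e₀‖ < δ :=
      c1.eventually (gt_mem_nhds (by simp only [hT20, sub_self, norm_zero]; exact hδ0))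
    have e2 : ∀ᶠ x in 𝓝 (0 : EuclideanSpace ℝ (Fin d)), ‖T₃ x + e₀‖ < δ :=
      c2.eventually (gt_mem_nhds (by simp only [hT30, neg_add_cancel, norm_zero]; exact hδ0))
    have e3 : ∀ᶠ x in 𝓝 (0 : EuclideanSpace ℝ (Fin d)), ‖x‖ < δ :=
      continuous_norm.continuousAt.eventually (gt_mem_nhds (by simpa using hδ0))
    exact (T₂.open_source.mem_nhds h0 : _) |> fun h => (Filter.eventually_of_mem h fun _ hx => hx).and
      (e1.and (e2.and e3))
  obtain ⟨η, hη, hball⟩ := Metric.eventually_nhds_iff_ball.1 ev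
  set A : Set (EuclideanSpace ℝ (Fin d)) := Metric.ball 0 η with hAdef
  set Tb := T₂.restrOpen A Metric.isOpen_ball with hTb
  set Tc := T₃.restrOpen A Metric.isOpen_ball with hTc
  have hsb : Tb.source = A := by
    rw [hTb, OpenPartialHomeomorph.restrOpen_source]
    exact inter_eq_right.2 fun x hx => (hball x hx).1
  have hsc : Tc.source = A := by
    rw [hTc, OpenPartialHomeomorph.restrOpen_source, ← hsrc]
    exact inter_eq_right.2 fun x hx => (hball x hx).1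
  have hTbapp : ∀ x, Tb x = T₂ x := fun x => rfl
  have hTcapp : ∀ x, Tc x = T₃ x := fun x => rfl
  have mapb : ∀ x ∈ A, Tb x ∈ Tb.target := fun x hx => Tb.map_source (by rw [hsb]; exact hx)
  have mapc : ∀ x ∈ A, Tc x ∈ Tc.target := fun x hx => Tc.map_source (by rw [hsc]; exact hx)
  have symb : ∀ y ∈ Tb.target, Tb.symm y ∈ A := fun y hy => by rw [← hsb]; exact Tb.map_target hy
  have symc : ∀ y ∈ Tc.target, Tc.symm y ∈ A := fun y hy => by rw [← hsc]; exact Tc.map_target hy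
  have hA : ∀ x ∈ A, ‖x‖ < δ := fun x hx => (hball x hx).2.2.2
  have hB : ∀ y ∈ Tb.target, ‖y - e₀‖ < δ := by
    intro y hy
    have h := (hball _ (symb y hy)).2.1
    rwa [← hTbapp, Tb.right_inv hy] at h
  have hC : ∀ y ∈ Tc.target, ‖y + e₀‖ < δ := by
    intro y hy
    have h := (hball _ (symc y hy)).2.2.1
    rwa [← hTcapp, Tc.right_inv hy] at h
  -- coordinates
  have kA : ∀ x ∈ A, |x i₀| < 1 / 8 ∧ |x i₁| < 1 / 8 := by
    intro x hx
    have := hA x hx
    exact ⟨by linarith [abs_coord_le x i₀], by linarith [abs_coord_le x i₁]⟩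
  have kB : ∀ x ∈ Tb.target, |x i₀ - 1| < 1 / 8 ∧ |x i₁| < 1 / 8 := by
    intro x hx
    have h1 := hB x hx
    have h2 := abs_coord_le (x - e₀) i₀
    have h3 := abs_coord_le (x - e₀) i₁
    rw [PiLp.sub_apply, he0c0] at h2
    rw [PiLp.sub_apply, he0c1, sub_zero] at h3
    exact ⟨by linarith, by linarith⟩
  have kC : ∀ x ∈ Tc.target, |x i₀ + 1| < 1 / 8 ∧ |x i₁| < 1 / 8 := by
    intro x hx
    have h1 := hC x hx
    have h2 := abs_coord_le (x + e₀) i₀
    have h3 := abs_coord_le (x + e₀) i₁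
    rw [PiLp.add_apply, he0c0] at h2
    rw [PiLp.add_apply, he0c1, add_zero] at h3
    exact ⟨by linarith, by linarith⟩
  have RA : ∀ x ∈ A, R x ∈ A := by
    intro x hx
    rw [hAdef, mem_ball_zero_iff] at hx ⊢
    rwa [R.norm_map]
  have dAB : ∀ x ∈ A, x ∉ Tb.target := by
    intro x hx hy
    have h1 := (kA x hx).1; have h2 := (kB x hy).1
    rw [abs_lt] at h1 h2; linarith
  have dAC : ∀ x ∈ A, x ∉ Tc.target := by
    intro x hx hy
    have h1 := (kA x hx).1; have h2 := (kC x hy).1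
    rw [abs_lt] at h1 h2; linarith
  have dBC : ∀ x ∈ Tb.target, x ∉ Tc.target := by
    intro x hx hy
    have h1 := (kB x hx).1; have h2 := (kC x hy).1
    rw [abs_lt] at h1 h2; linarith
  have dBRB : ∀ x ∈ Tb.target, R x ∉ Tb.target := by
    intro x hx hy
    have h1 := (kB x hx).1; have h2 := (kB _ hy).2
    rw [hRc1] at h2
    rw [abs_lt] at h1 h2; linarith
  have dBRC : ∀ x ∈ Tb.target, R x ∉ Tc.target := by
    intro x hx hy
    have h1 := (kB x hx).1; have h2 := (kC _ hy).2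
    rw [hRc1] at h2
    rw [abs_lt] at h1 h2; linarith
  have dCRC : ∀ x ∈ Tc.target, R x ∉ Tc.target := by
    intro x hx hy
    have h1 := (kC x hx).1; have h2 := (kC _ hy).2
    rw [hRc1] at h2
    rw [abs_lt] at h1 h2; linarith
  have dCRB : ∀ x ∈ Tc.target, R x ∉ Tb.target := by
    intro x hx hy
    have h1 := (kC x hx).1; have h2 := (kB _ hy).2
    rw [hRc1] at h2
    rw [abs_lt] at h1 h2; linarith
  have dRBA : ∀ x, R x ∈ Tb.target → x ∉ A := fun x hx hxA => dAB _ (RA x hxA) hx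
  have dRCA : ∀ x, R x ∈ Tc.target → x ∉ A := fun x hx hxA => dAC _ (RA x hxA) hx
  have hgood_b : GoodDiffeo Tb := by
    constructor
    · intro x hx
      exact hc2 x (by rw [hTb, OpenPartialHomeomorph.restrOpen_source] at hx; exact hx.1)
    · intro y hy
      refine hc2s y ?_
      rw [hTb] at hy
      obtain ⟨x, hx, rfl⟩ := (T₂.restrOpen A Metric.isOpen_ball).surjOn hy
      exact T₂.map_source hx.1
  have hgood_c : GoodDiffeo Tc := by
    constructor
    · intro x hx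
      refine hc3 x ?_
      rw [hTc, OpenPartialHomeomorph.restrOpen_source, ← hsrc] at hx
      exact hx.1
    · intro y hy
      refine hc3s y ?_
      rw [hTc] at hy
      obtain ⟨x, hx, rfl⟩ := (T₃.restrOpen A Metric.isOpen_ball).surjOn hy
      exact T₃.map_source hx.1
  -- potentials
  set uA := uAf (d := d) K with huA
  set uC := uCf s K r e₀ with huC
  set uB := uBf s K r e₀ Tb Tc with huB
  have uB_eq : ∀ y ∈ Tb.target, uB y = cR s (Tb.symm y) y (Tc (Tb.symm y)) - uA (Tb.symm y)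
      - uC (Tc (Tb.symm y)) := by
    intro y hy
    have h1 : totMap Tb.symm y = Tb.symm y := totMap_eq hy
    have h2 : totMap Tc (Tb.symm y) = Tc (Tb.symm y) := totMap_eq (by rw [hsc]; exact symb y hy)
    rw [huB]; unfold uBf; rw [h1, h2]
  have LI : ∀ y ∈ Tb.target, ∀ x z, x ≠ y → x ≠ z → y ≠ z →
      uA x + uB y + uC z + (‖x - Tb.symm y‖ ^ 2 + ‖z - Tc (Tb.symm y)‖ ^ 2) ≤ cR s x y z := by
    intro y hy x z hxy hxz hyz
    have h1 := symb y hy
    have h2 : T₂ (Tb.symm y) = y := Tb.right_inv hy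
    have h3 := hglob (Tb.symm y) (hball _ h1).1 x z
    rw [h2] at h3
    have h4 := h3 hxy hxz hyz
    rw [← hTcapp] at h4
    rw [uB_eq y hy]
    simp only [huA, huC, uAf, uCf]
    unfold f at h4
    unfold cR
    linarith
  have uA_le : ∀ x, uA x ≤ 2 := by
    intro x; rw [huA]; unfold uAf
    have : 0 ≤ K / 2 * ‖x‖ ^ 2 := by positivity
    linarith
  have uA_ge : ∀ x ∈ A, 1 < uA x := by
    intro x hx; rw [huA]; unfold uAf
    have h1 := hA x hx
    have : K / 2 * ‖x‖ ^ 2 ≤ K / 2 * δ ^ 2 := by gcongr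
    linarith
  have uC_bd : ∀ z ∈ Tc.target, 0 < uC z ∧ uC z ≤ p / 2 + ‖r‖ * δ := by
    intro z hz
    have h1 := hC z hz
    have h2 : |⟪r, z + e₀⟫| ≤ ‖r‖ * δ :=
      (abs_real_inner_le_norm _ _).trans (by gcongr)
    have h3 : K / 2 * ‖z + e₀‖ ^ 2 ≤ K / 2 * δ ^ 2 := by gcongr
    have h4 : 0 ≤ K / 2 * ‖z + e₀‖ ^ 2 := by positivity
    rw [abs_le] at h2
    rw [huC]; unfold uCf
    rw [← hp]
    exact ⟨by linarith, by linarith⟩
  have n1 : ∀ y ∈ Tb.target, 1 - δ < ‖y‖ ∧ ‖y‖ < 1 + δ ∧ 2 - δ < ‖y + e₀‖ ∧ ‖y + e₀‖ < 2 + δ := by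
    intro y hy
    have h1 := hB y hy
    have h2 : ‖e₀‖ ≤ ‖y‖ + ‖y - e₀‖ := by
      have := norm_sub_le y (y - e₀)
      rwa [sub_sub_cancel] at this
    have h3 : ‖y‖ ≤ ‖y - e₀‖ + ‖e₀‖ := by
      have := norm_add_le (y - e₀) e₀
      rwa [sub_add_cancel] at this
    have h4 : ‖(2 : ℝ) • e₀‖ ≤ ‖y + e₀‖ + ‖y - e₀‖ := by
      have := norm_sub_le (y + e₀) (y - e₀)
      have h5 : y + e₀ - (y - e₀) = (2 : ℝ) • e₀ := by rw [two_smul]; abel
      rwa [h5] at this
    have h5 : ‖y + e₀‖ ≤ ‖y - e₀‖ + ‖(2 : ℝ) • e₀‖ := by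
      have := norm_add_le (y - e₀) ((2 : ℝ) • e₀)
      have h6 : y - e₀ + (2 : ℝ) • e₀ = y + e₀ := by rw [two_smul]; abel
      rwa [h6] at this
    have h6 : ‖(2 : ℝ) • e₀‖ = 2 := by rw [norm_smul, he₀]; norm_num
    rw [he₀] at h2 h3
    rw [h6] at h4 h5
    exact ⟨by linarith, by linarith, by linarith, by linarith⟩
  have e₀ne : e₀ ≠ 0 := by
    intro h; rw [h, norm_zero] at he₀; exact zero_ne_one he₀
  have uB_le : ∀ y ∈ Tb.target, uB y ≤ β₁ := by
    intro y hy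
    obtain ⟨m1, m2, m3, m4⟩ := n1 y hy
    have y0 : (0 : EuclideanSpace ℝ (Fin d)) ≠ y := by
      intro h; rw [← h, norm_zero] at m1; linarith
    have y1 : y ≠ -e₀ := by
      intro h; rw [h, neg_add_cancel, norm_zero] at m3; linarith
    have h1 := LI y hy 0 (-e₀) y0 (by rw [ne_eq, eq_comm, neg_eq_zero]; exact e₀ne) y1
    have h2 : uA 0 = 2 := by rw [huA]; unfold uAf; simp
    have h3 : uC (-e₀) = p / 2 := by rw [huC]; unfold uCf; simp [hp]
    have h4 : cR s 0 y (-e₀) ≤ (1 - δ) ^ (-s) + 1 + (2 - δ) ^ (-s) := by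
      unfold cR
      have g1 : ‖(0 : EuclideanSpace ℝ (Fin d)) - y‖ ^ (-s) ≤ (1 - δ) ^ (-s) := by
        rw [zero_sub, norm_neg]
        exact rpow_le_rpow_of_nonpos (by linarith) m1.le (by linarith)
      have g2 : ‖(0 : EuclideanSpace ℝ (Fin d)) - -e₀‖ ^ (-s) = 1 := by
        rw [zero_sub, neg_neg, he₀, one_rpow]
      have g3 : ‖y - -e₀‖ ^ (-s) ≤ (2 - δ) ^ (-s) := by
        rw [sub_neg_eq_add]
        exact rpow_le_rpow_of_nonpos (by linarith) m3.le (by linarith)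
      linarith
    have h5 : 0 ≤ ‖(0 : EuclideanSpace ℝ (Fin d)) - Tb.symm y‖ ^ 2 + ‖-e₀ - Tc (Tb.symm y)‖ ^ 2 := by
      positivity
    linarith
  have uB_pos : ∀ y ∈ Tb.target, 0 < uB y := by
    intro y hy
    rw [uB_eq y hy]
    have hx := symb y hy
    have hz := mapc _ hx
    set x₀ := Tb.symm y with hx₀
    set z₀ := Tc x₀ with hz₀
    have q1 := hA x₀ hx
    obtain ⟨m1, m2, m3, m4⟩ := n1 y hy
    have q2 := hC z₀ hz
    have q3 : ‖z₀‖ ≤ 1 + δ := by
      have := norm_sub_le (z₀ + e₀) e₀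
      rw [add_sub_cancel_right, he₀] at this
      linarith
    have g1 : (1 + 2 * δ) ^ (-s) ≤ ‖x₀ - y‖ ^ (-s) := by
      refine rpow_le_rpow_of_nonpos ?_ ?_ (by linarith)
      · refine norm_pos_iff.2 (sub_ne_zero.2 ?_)
        intro h; exact dAB x₀ hx (h ▸ hy)
      · have := norm_sub_le x₀ y; linarith
    have g2 : (1 + 2 * δ) ^ (-s) ≤ ‖x₀ - z₀‖ ^ (-s) := by
      refine rpow_le_rpow_of_nonpos ?_ ?_ (by linarith)
      · refine norm_pos_iff.2 (sub_ne_zero.2 ?_)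
        intro h; exact dAC x₀ hx (by rw [h]; exact hz)
      · have := norm_sub_le x₀ z₀; linarith
    have g3 : (2 + 2 * δ) ^ (-s) ≤ ‖y - z₀‖ ^ (-s) := by
      refine rpow_le_rpow_of_nonpos ?_ ?_ (by linarith)
      · refine norm_pos_iff.2 (sub_ne_zero.2 ?_)
        intro h; exact dBC y hy (by rw [h]; exact hz)
      · have := norm_sub_le y z₀; linarith
    have g4 := uA_le x₀
    have g5 := (uC_bd z₀ hz).2
    unfold cR
    linarith
  set u := uf s K r e₀ Tb Tc R A with hu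
  have u_A : ∀ x ∈ A, u x = uA x := by
    intro x hx; rw [hu]; unfold uf; rw [if_pos hx]
  have u_B : ∀ x ∈ Tb.target, u x = uB x := by
    intro x hx; rw [hu]; unfold uf
    rw [if_neg (fun h => dAB x h hx), if_pos hx]
  have u_C : ∀ x ∈ Tc.target, u x = uC x := by
    intro x hx; rw [hu]; unfold uf
    rw [if_neg (fun h => dAC x h hx), if_neg (fun h => dBC x h hx), if_pos hx]
  have u_RB : ∀ x, R x ∈ Tb.target → u x = uB (R x) := by
    intro x hx; rw [hu]; unfold uf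
    rw [if_neg (dRBA x hx), if_neg (fun h => dBRB x h hx), if_neg (fun h => dCRB x h hx), if_pos hx]
  have u_RC : ∀ x, R x ∈ Tc.target → u x = uC (R x) := by
    intro x hx; rw [hu]; unfold uf
    rw [if_neg (dRCA x hx), if_neg (fun h => dBRC x h hx), if_neg (fun h => dCRC x h hx),
      if_neg (fun h => dBC _ h hx), if_pos hx]
  have u_no : ∀ x, x ∉ A → x ∉ Tb.target → x ∉ Tc.target → R x ∉ Tb.target → R x ∉ Tc.target →
      u x = 0 := by
    intro x h1 h2 h3 h4 h5; rw [hu]; unfold uf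
    rw [if_neg h1, if_neg h2, if_neg h3, if_neg h4, if_neg h5]
  have hu0 : ∀ x, 0 ≤ u x := by
    intro x
    by_cases h1 : x ∈ A
    · rw [u_A x h1]; linarith [uA_ge x h1]
    by_cases h2 : x ∈ Tb.target
    · rw [u_B x h2]; exact (uB_pos x h2).le
    by_cases h3 : x ∈ Tc.target
    · rw [u_C x h3]; exact (uC_bd x h3).1.le
    by_cases h4 : R x ∈ Tb.target
    · rw [u_RB x h4]; exact (uB_pos _ h4).le
    by_cases h5 : R x ∈ Tc.target
    · rw [u_RC x h5]; exact (uC_bd _ h5).1.le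
    rw [u_no x h1 h2 h3 h4 h5]
  have uC_le : ∀ z ∈ Tc.target, uC z ≤ β₁ := fun z hz => by linarith [(uC_bd z hz).2]
  have hu2 : ∀ x, u x ≤ 2 := by
    intro x
    by_cases h1 : x ∈ A
    · rw [u_A x h1]; exact uA_le x
    by_cases h2 : x ∈ Tb.target
    · rw [u_B x h2]; linarith [uB_le x h2]
    by_cases h3 : x ∈ Tc.target
    · rw [u_C x h3]; linarith [uC_le x h3]
    by_cases h4 : R x ∈ Tb.target
    · rw [u_RB x h4]; linarith [uB_le _ h4]
    by_cases h5 : R x ∈ Tc.target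
    · rw [u_RC x h5]; linarith [uC_le _ h5]
    rw [u_no x h1 h2 h3 h4 h5]; norm_num
  have uAR : ∀ x, uA (R x) = uA x := by
    intro x; rw [huA]; unfold uAf; rw [R.norm_map]
  have huR : ∀ x, u (R x) = u x := by
    intro x
    by_cases h1 : x ∈ A
    · rw [u_A x h1, u_A _ (RA x h1), uAR]
    by_cases h2 : x ∈ Tb.target
    · rw [u_B x h2, u_RB (R x) (by rw [hRR]; exact h2), hRR]
    by_cases h3 : x ∈ Tc.target
    · rw [u_C x h3, u_RC (R x) (by rw [hRR]; exact h3), hRR]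
    by_cases h4 : R x ∈ Tb.target
    · rw [u_RB x h4, u_B _ h4]
    by_cases h5 : R x ∈ Tc.target
    · rw [u_RC x h5, u_C _ h5]
    rw [u_no x h1 h2 h3 h4 h5, u_no (R x) ?_ h4 h5 (by rwa [hRR]) (by rwa [hRR])]
    intro h
    apply h1
    have := RA _ h
    rwa [hRR] at this
  have hum : Measurable u := measurable_uf s K r e₀ Tb Tc R A Metric.isOpen_ball.measurableSet
  -- distinctness helper
  have neAB : ∀ x ∈ A, ∀ y ∈ Tb.target, x ≠ y := fun x hx y hy h => dAB x hx (h ▸ hy)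
  have neAC : ∀ x ∈ A, ∀ y ∈ Tc.target, x ≠ y := fun x hx y hy h => dAC x hx (h ▸ hy)
  have neBC : ∀ x ∈ Tb.target, ∀ y ∈ Tc.target, x ≠ y := fun x hx y hy h => dBC x hx (h ▸ hy)
  have L0 : ∀ x ∈ A, ∀ y ∈ Tb.target, ∀ z ∈ Tc.target, u x + u y + u z ≤ cR s x y z ∧
      (u x + u y + u z = cR s x y z → y = Tb x ∧ z = Tc x) := by
    intro x hx y hy z hz
    have h1 := LI y hy x z (neAB x hx y hy) (neAC x hx z hz) (neBC y hy z hz)
    rw [u_A x hx, u_B y hy, u_C z hz]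
    have h2 : 0 ≤ ‖x - Tb.symm y‖ ^ 2 := by positivity
    have h3 : 0 ≤ ‖z - Tc (Tb.symm y)‖ ^ 2 := by positivity
    refine ⟨by linarith, fun h => ?_⟩
    have h4 : ‖x - Tb.symm y‖ ^ 2 = 0 := by linarith
    have h5 : ‖z - Tc (Tb.symm y)‖ ^ 2 = 0 := by linarith
    have h6 : x = Tb.symm y := by
      rw [sq_eq_zero_iff, norm_eq_zero, sub_eq_zero] at h4; exact h4
    rw [sq_eq_zero_iff, norm_eq_zero, sub_eq_zero] at h5
    rw [h6]
    exact ⟨(Tb.right_inv hy).symm, h5⟩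
  have P13r : ∀ x y z, 
    (x ∈ A ∨ x ∈ Tb.target ∨ x ∈ Tc.target ∨ R x ∈ Tb.target ∨ R x ∈ Tc.target) →
    (y ∈ A ∨ y ∈ Tb.target ∨ y ∈ Tc.target ∨ R y ∈ Tb.target ∨ R y ∈ Tc.target) →
    (z ∈ A ∨ z ∈ Tb.target ∨ z ∈ Tc.target ∨ R z ∈ Tb.target ∨ R z ∈ Tc.target) →
    x ≠ y → x ≠ z → y ≠ z → u x + u y + u z ≤ cR s x y z ∧ (u x + u y + u z = cR s x y z →
      (x ∈ A ∧ Mat R Tb Tc x y z) ∨ (y ∈ A ∧ Mat R Tb Tc y x z) ∨ (z ∈ A ∧ Mat R Tb Tc z x y)) := by
    intro x y z hx hy hz hxy hxz hyz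
    have nR : ∀ x, ‖x - e₁‖ = ‖R x - e₀‖ := by
      intro x
      rw [← hRe₁, ← map_sub, R.norm_map]
    have nR' : ∀ x, ‖x + e₁‖ = ‖R x + e₀‖ := by
      intro x
      rw [← hRe₁, ← map_add, R.norm_map]
    refine cluster_ineq (A := A) (B := Tb.target) (C := Tc.target) (RB := {x | R x ∈ Tb.target})
      (RC := {x | R x ∈ Tc.target}) (M := Mat R Tb Tc) hs he₀ he₁ he01 hδ0 hδ hβ d1 d2 d3
      (fun x y z h => h.swap) hA hB hC (fun x hx => ?_) (fun x hx => ?_)
      (fun x hx => hu2 x) (fun x hx => by rw [u_B x hx]; exact uB_le x hx)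
      (fun x hx => by rw [u_C x hx]; exact uC_le x hx)
      (fun x hx => by rw [u_RB x hx]; exact uB_le _ hx)
      (fun x hx => by rw [u_RC x hx]; exact uC_le _ hx) ?_ ?_ hx hy hz hxy hxz hyz
    · rw [nR]; exact hB _ hx
    · rw [nR']; exact hC _ hx
    · intro x hx y hy z hz
      have := L0 x hx y hy z hz
      exact ⟨this.1, fun h => Or.inl (this.2 h)⟩
    · intro x hx y hy z hz
      have := L0 (R x) (RA x hx) (R y) hy (R z) hz
      rw [huR, huR, huR, cR_isom] at this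
      exact ⟨this.1, fun h => Or.inr (Or.inr (Or.inl (this.2 h)))⟩
  have addR : ∀ x y z, ENNReal.ofReal (u x) + ENNReal.ofReal (u y) + ENNReal.ofReal (u z) =
      ENNReal.ofReal (u x + u y + u z) := by
    intro x y z
    rw [ENNReal.ofReal_add (by linarith [hu0 x, hu0 y]) (hu0 z), ENNReal.ofReal_add (hu0 x) (hu0 y)]
  have cR0 : ∀ x y z : EuclideanSpace ℝ (Fin d), 0 ≤ cR s x y z := by
    intro x y z; unfold cR; positivity
  refine ⟨{ R := R, RR := hRR, Tb := Tb, Tc := Tc, η := η, hη := hη, srcb := hsb, srcc := hsc,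
            gb := hgood_b, gc := hgood_c, dAB := dAB, dAC := dAC, dBC := dBC, dBRB := dBRB,
            dBRC := dBRC, dCRC := dCRC, u := u, hum := hum, hu0 := hu0, hu2 := hu2, huR := huR,
            P2 := ?_, P13 := ?_, P4 := ?_ }⟩
  · intro x hx
    rw [addR, tripleCost_ne (neAB x hx _ (mapb x hx)) (neAC x hx _ (mapc x hx))
      (neBC _ (mapb x hx) _ (mapc x hx))]
    congr 1
    rw [u_A x hx, u_B _ (mapb x hx), u_C _ (mapc x hx), uB_eq _ (mapb x hx),
      Tb.left_inv (by rw [hsb]; exact hx)]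
    ring
  · intro x y z hx hy hz
    by_cases hd : x = y ∨ x = z ∨ y = z
    · rw [tripleCost_top hs hd]
      exact ⟨le_top, fun h => absurd h (by rw [addR]; exact ENNReal.ofReal_ne_top)⟩
    · push Not at hd
      obtain ⟨hxy, hxz, hyz⟩ := hd
      have h1 := P13r x y z hx hy hz hxy hxz hyz
      rw [addR, tripleCost_ne hxy hxz hyz]
      refine ⟨ENNReal.ofReal_le_ofReal h1.1, fun h => h1.2 ?_⟩
      rwa [ENNReal.ofReal_eq_ofReal_iff (by linarith [hu0 x, hu0 y, hu0 z]) (cR0 _ _ _)] at h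
  · intro ε hε
    set C := s / 2 * 2 ^ (s + 2) with hCdef
    have hC0 : 0 < C := by positivity
    set L := 2 * (4 * C + C) + K with hL
    have hL0 : 0 < L := by positivity
    refine ⟨min 1 (ε / L), lt_min one_pos (by positivity), ?_⟩
    intro x hx x' hx' hxx
    have hx1 : ‖x - x'‖ ≤ 1 := hxx.trans (min_le_left _ _)
    have hx2 : L * ‖x - x'‖ ≤ ε := by
      have := hxx.trans (min_le_right _ _)
      rwa [le_div_iff₀ hL0, mul_comm] at this
    have hy := mapb x' hx'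
    have hz := mapc x' hx'
    rw [addR, ← ENNReal.ofReal_add (by linarith [hu0 x, hu0 (Tb x'), hu0 (Tc x')]) hε.le,
      tripleCost_ne (neAB x hx _ hy) (neAC x hx _ hz) (neBC _ hy _ hz)]
    apply ENNReal.ofReal_le_ofReal
    rw [u_A x hx, u_B _ hy, u_C _ hz, uB_eq _ hy, Tb.left_inv (by rw [hsb]; exact hx')]
    -- perturbation bound
    have key : ∀ w : EuclideanSpace ℝ (Fin d), 1 - δ < ‖w‖ → ‖w‖ < 1 + δ →
        ‖x - w‖ ^ (-s) - ‖x' - w‖ ^ (-s) ≤ (4 * C + C) * ‖x - x'‖ := by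
      intro w hw1 hw2
      have a1 := hA x hx
      have a2 := hA x' hx'
      have b1 : 1 / 2 ≤ ‖x - w‖ := by
        have := norm_sub_norm_le w x
        rw [norm_sub_rev w x] at this
        linarith
      have b2 : ‖x - w‖ ≤ 2 := by
        have := norm_sub_le x w; linarith
      have b3 : x - w ≠ 0 := by
        intro h; rw [h, norm_zero] at b1; norm_num at b1
      have b4 : x' - w ≠ 0 := by
        intro h
        have h' : x' = w := sub_eq_zero.1 h
        rw [h'] at a2; linarith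
      have t := f_tangent hs (v := x - w) (w := x' - x) b3 (by rwa [sub_add_sub_cancel' ])
      rw [sub_add_sub_cancel'] at t
      have c1 : s / 2 * ‖x - w‖ ^ (-s - 2) ≤ C := by
        rw [hCdef]
        gcongr
        have h3 : ‖x - w‖ ^ (-s - 2) ≤ (1 / 2 : ℝ) ^ (-s - 2) :=
          rpow_le_rpow_of_nonpos (by norm_num) b1 (by linarith)
        refine h3.trans (le_of_eq ?_)
        rw [one_div, inv_rpow (by norm_num), ← rpow_neg (by norm_num)]
        congr 1; ring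
      have c2 : ‖G s (x - w)‖ ≤ 4 * C := by
        unfold G
        rw [norm_smul, norm_mul, norm_neg, Real.norm_of_nonneg hs.le,
          Real.norm_of_nonneg (by positivity : (0:ℝ) ≤ ‖x - w‖ ^ (-s - 2))]
        have : s * ‖x - w‖ ^ (-s - 2) ≤ 2 * C := by linarith
        calc s * ‖x - w‖ ^ (-s - 2) * ‖x - w‖ ≤ (2 * C) * 2 := by gcongr
          _ = 4 * C := by ring
      have c3 : -(4 * C * ‖x - x'‖) ≤ ⟪G s (x - w), x' - x⟫ := by
        have := abs_real_inner_le_norm (G s (x - w)) (x' - x)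
        rw [norm_sub_rev x' x] at this
        have h2 : ‖G s (x - w)‖ * ‖x - x'‖ ≤ 4 * C * ‖x - x'‖ := by gcongr
        rw [abs_le] at this
        linarith [this.1]
      have c4 : s / 2 * ‖x - w‖ ^ (-s - 2) * ‖x' - x‖ ^ 2 ≤ C * ‖x - x'‖ := by
        rw [norm_sub_rev x' x]
        have : ‖x - x'‖ ^ 2 ≤ ‖x - x'‖ := by
          nlinarith [norm_nonneg (x - x')]
        calc _ ≤ C * ‖x - x'‖ ^ 2 := by gcongr
          _ ≤ _ := by gcongr
      unfold f at t
      linarith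
    have k1 := key (Tb x') (n1 _ hy).1 (n1 _ hy).2.1
    have m1 : 1 - δ < ‖Tc x'‖ ∧ ‖Tc x'‖ < 1 + δ := by
      have h1 := hC _ hz
      have h2 : ‖e₀‖ ≤ ‖Tc x' + e₀‖ + ‖Tc x'‖ := by
        have := norm_sub_le (Tc x' + e₀) (Tc x')
        rwa [add_sub_cancel_left] at this
      have h3 : ‖Tc x'‖ ≤ ‖Tc x' + e₀‖ + ‖e₀‖ := by
        have := norm_sub_le (Tc x' + e₀) e₀
        rwa [add_sub_cancel_right] at this
      rw [he₀] at h2 h3
      exact ⟨by linarith, by linarith⟩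
    have k2 := key (Tc x') m1.1 m1.2
    have k3 : uA x' - uA x ≤ K * ‖x - x'‖ := by
      rw [huA]; unfold uAf
      have a1 := hA x hx
      have a2 := hA x' hx'
      have h1 : ‖x‖ - ‖x'‖ ≤ ‖x - x'‖ := norm_sub_norm_le x x'
      have h2 : ‖x‖ ^ 2 - ‖x'‖ ^ 2 ≤ 2 * ‖x - x'‖ := by
        have h3 : ‖x‖ ^ 2 - ‖x'‖ ^ 2 = (‖x‖ - ‖x'‖) * (‖x‖ + ‖x'‖) := by ring
        rw [h3]
        have h4 : ‖x‖ + ‖x'‖ ≤ 2 := by linarith
        have h5 : 0 ≤ ‖x‖ + ‖x'‖ := by positivity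
        calc (‖x‖ - ‖x'‖) * (‖x‖ + ‖x'‖) ≤ ‖x - x'‖ * (‖x‖ + ‖x'‖) := by gcongr
          _ ≤ ‖x - x'‖ * 2 := by gcongr
          _ = _ := by ring
      nlinarith
    have hfin : (4 * C + C) * ‖x - x'‖ + (4 * C + C) * ‖x - x'‖ + K * ‖x - x'‖ = L * ‖x - x'‖ := by
      rw [hL]; ring
    unfold cR
    linarith

end Crest.Agent.H12.Split
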