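import Mathlib

set_option autoImplicit false
open Real Set Filter
open scoped Topology RealInnerProductSpace ContDiff

namespace Crest.Agent.H12.Split

variable {E : Type*} [NormedAddCommGroup E] [InnerProductSpace ℝ E]

/-- the pair interaction as a real function -/
noncomputable def f (s : ℝ) (v : E) : ℝ := ‖v‖ ^ (-s)

/-- its gradient -/
noncomputable def G (s : ℝ) (v : E) : E := (-s * ‖v‖ ^ (-s - 2)) • v

lemma rpow_tangent {a b p : ℝ} (ha : 0 < a) (hb : 0 < b) (hp : p ≤ 0) :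
    a ^ p + p * a ^ (p - 1) * (b - a) ≤ b ^ p := by
  have h1 : 0 < b / a := div_pos hb ha
  have h2 : b ^ p = a ^ p * (b / a) ^ p := by
    rw [← mul_rpow ha.le h1.le]; congr 1; field_simp
  have h3 : 1 + p * (b / a - 1) ≤ (b / a) ^ p := by
    rw [rpow_def_of_pos h1]
    have h4 := add_one_le_exp (log (b / a) * p)
    have h5 := log_le_sub_one_of_pos h1
    nlinarith
  have h6 : a ^ (p - 1) = a ^ p / a := by
    rw [rpow_sub_one ha.ne']
  have h7 : 0 < a ^ p := rpow_pos_of_pos ha p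
  rw [h2, h6]
  calc a ^ p + p * (a ^ p / a) * (b - a) = a ^ p * (1 + p * (b / a - 1)) := by
        field_simp
    _ ≤ _ := mul_le_mul_of_nonneg_left h3 h7.le

lemma f_tangent {s : ℝ} (hs : 0 < s) {v w : E} (hv : v ≠ 0) (hw : v + w ≠ 0) :
    f s v + ⟪G s v, w⟫ - s / 2 * ‖v‖ ^ (-s - 2) * ‖w‖ ^ 2 ≤ f s (v + w) := by
  have h1 : 0 < ‖v‖ := norm_pos_iff.2 hv
  have h2 : 0 < ‖v + w‖ := norm_pos_iff.2 hw
  have h3 := rpow_tangent (a := ‖v‖ ^ 2) (b := ‖v + w‖ ^ 2) (p := -s / 2) (by positivity)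
    (by positivity) (by linarith)
  have e1 : (‖v‖ ^ 2) ^ (-s / 2) = ‖v‖ ^ (-s) := by
    rw [← rpow_natCast, ← rpow_mul h1.le]; congr 1; push_cast; ring
  have e2 : (‖v + w‖ ^ 2) ^ (-s / 2) = ‖v + w‖ ^ (-s) := by
    rw [← rpow_natCast, ← rpow_mul h2.le]; congr 1; push_cast; ring
  have e3 : (‖v‖ ^ 2) ^ (-s / 2 - 1) = ‖v‖ ^ (-s - 2) := by
    rw [← rpow_natCast, ← rpow_mul h1.le]; congr 1; push_cast; ring
  have e4 : ‖v + w‖ ^ 2 - ‖v‖ ^ 2 = 2 * ⟪v, w⟫ + ‖w‖ ^ 2 := by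
    rw [norm_add_sq_real]; ring
  rw [e1, e2, e3, e4] at h3
  unfold f G
  rw [inner_smul_left]
  simp only [conj_trivial]
  linarith [h3]

end Crest.Agent.H12.Split
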