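import Crest.Agent.H12.SplitSheets

set_option autoImplicit false
open Set Filter MeasureTheory
open scoped Topology ENNReal
open Crest.AnalysisR.OT

namespace Crest.Agent.H12.Split

namespace Sh
variable {d : ℕ} (S : Sh d)

/-- graph plans are couplings -/
lemma graph_coupling {T₂ T₃ : EuclideanSpace ℝ (Fin d) → EuclideanSpace ℝ (Fin d)}
    (m2 : Measurable T₂) (m3 : Measurable T₃) (h2 : S.mu.map T₂ = S.mu) (h3 : S.mu.map T₃ = S.mu) :
    IsCoupling₃ S.mu (S.mu.map (fun x => (x, T₂ x, T₃ x))) := by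
  have m : Measurable (fun x => (x, T₂ x, T₃ x)) := measurable_id.prodMk (m2.prodMk m3)
  have q2 : Measurable (fun p : EuclideanSpace ℝ (Fin d) × EuclideanSpace ℝ (Fin d) ×
    EuclideanSpace ℝ (Fin d) => p.2.1) := measurable_fst.comp measurable_snd
  have q3 : Measurable (fun p : EuclideanSpace ℝ (Fin d) × EuclideanSpace ℝ (Fin d) ×
    EuclideanSpace ℝ (Fin d) => p.2.2) := measurable_snd.comp measurable_snd
  refine ⟨?_, ?_, ?_⟩
  · rw [Measure.map_map measurable_fst m]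
    simp only [Function.comp_def, Measure.map_id']
  · rw [Measure.map_map q2 m]
    simpa only [Function.comp_def] using h2
  · rw [Measure.map_map q3 m]
    simpa only [Function.comp_def] using h3

lemma graph_cost {T₂ T₃ : EuclideanSpace ℝ (Fin d) → EuclideanSpace ℝ (Fin d)}
    (m2 : Measurable T₂) (m3 : Measurable T₃) :
    ∫⁻ p, S.cost p ∂(S.mu.map (fun x => (x, T₂ x, T₃ x))) = ∫⁻ x, S.cost (x, T₂ x, T₃ x) ∂S.mu := by
  have m : Measurable (fun x => (x, T₂ x, T₃ x)) := measurable_id.prodMk (m2.prodMk m3)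
  rw [lintegral_map S.hcost m]

/-- measure of sets disjoint from the non relevant clusters -/
lemma mu_apply {D : Set (EuclideanSpace ℝ (Fin d))} (hD : MeasurableSet D) :
    S.mu D = (3 : ℝ≥0∞)⁻¹ * S.γ D + (6 : ℝ≥0∞)⁻¹ *
      (S.γ (S.b false ⁻¹' D) + S.γ (S.c false ⁻¹' D) + S.γ (S.b true ⁻¹' D) +
        S.γ (S.c true ⁻¹' D)) := by
  unfold mu
  simp only [Measure.add_apply, Measure.smul_apply, smul_eq_mul, Measure.map_apply (S.hb _) hD,
    Measure.map_apply (S.hc _) hD]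

lemma γ_zero {D : Set (EuclideanSpace ℝ (Fin d))} (h : ∀ x ∈ S.A, x ∉ D) : S.γ D = 0 := by
  rw [measure_eq_zero_iff_ae_notMem]
  filter_upwards [S.hγA] with x hx using h x hx

lemma γ_congr {D D' : Set (EuclideanSpace ℝ (Fin d))} (h : ∀ x ∈ S.A, (x ∈ D ↔ x ∈ D')) :
    S.γ D = S.γ D' := by
  refine measure_congr ?_
  filter_upwards [S.hγA] with x hx
  exact propext (h x hx)

theorem strict {T₂ T₃ : EuclideanSpace ℝ (Fin d) → EuclideanSpace ℝ (Fin d)}
    (m2 : Measurable T₂) (m3 : Measurable T₃) (h2 : S.mu.map T₂ = S.mu) (h3 : S.mu.map T₃ = S.mu) :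
    S.J + S.J + S.J < ∫⁻ x, S.cost (x, T₂ x, T₃ x) ∂S.mu := by
  have hprob := S.prob
  by_contra hcon
  rw [not_lt] at hcon
  have m : Measurable (fun x => (x, T₂ x, T₃ x)) := measurable_id.prodMk (m2.prodMk m3)
  have hcpl := S.graph_coupling m2 m3 h2 h3
  -- a.e. W
  have aW : ∀ᵐ x ∂S.mu, S.W x ∧ S.W (T₂ x) ∧ S.W (T₃ x) := by
    have := S.ae_coupling hcpl
    exact ae_of_ae_map m.aemeasurable this
  have hint : ∫⁻ x, (S.U x + S.U (T₂ x) + S.U (T₃ x)) ∂S.mu = S.J + S.J + S.J := by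
    rw [← S.lintegral_coupling hcpl, lintegral_map _ m]
    exact ((S.hU.comp measurable_fst).add (S.hU.comp (measurable_fst.comp measurable_snd))).add
        (S.hU.comp (measurable_snd.comp measurable_snd))
  have hae : (fun x => S.U x + S.U (T₂ x) + S.U (T₃ x)) =ᵐ[S.mu] fun x => S.cost (x, T₂ x, T₃ x) := by
    refine ae_eq_of_ae_le_of_lintegral_le ?_ ?_ (S.hcost.comp m).aemeasurable ?_
    · filter_upwards [aW] with x hx
      exact S.ineq x (T₂ x) (T₃ x) hx.1 hx.2.1 hx.2.2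
    · rw [hint]; exact S.J_ne_top
    · rw [hint]; exact hcon
  have good : ∀ᵐ x ∂S.mu, (x ∈ S.A ∧ ∃ k, (T₂ x = S.b k x ∧ T₃ x = S.c k x) ∨
      (T₃ x = S.b k x ∧ T₂ x = S.c k x)) ∨
    (T₂ x ∈ S.A ∧ ∃ k, (x = S.b k (T₂ x) ∧ T₃ x = S.c k (T₂ x)) ∨
      (T₃ x = S.b k (T₂ x) ∧ x = S.c k (T₂ x))) ∨
    (T₃ x ∈ S.A ∧ ∃ k, (x = S.b k (T₃ x) ∧ T₂ x = S.c k (T₃ x)) ∨
      (T₂ x = S.b k (T₃ x) ∧ x = S.c k (T₃ x))) := by
    filter_upwards [aW, hae] with x hx hx'
    exact S.eqc x (T₂ x) (T₃ x) hx.1 hx.2.1 hx.2.2 hx'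
  -- the set A₀
  set A₀ : Set (EuclideanSpace ℝ (Fin d)) :=
    S.A ∩ (T₂ ⁻¹' (S.B false) ∪ T₃ ⁻¹' (S.B false)) with hA₀
  have hA₀m : MeasurableSet A₀ := S.hA.inter ((m2 (S.hB _)).union (m3 (S.hB _)))
  -- the counting identity
  have count : ∀ D : Set (EuclideanSpace ℝ (Fin d)), MeasurableSet D → D ⊆ S.A →
      S.γ D = S.γ (D ∩ A₀) + S.γ (D ∩ A₀) := by
    intro D hD hDA
    set D' : Set (EuclideanSpace ℝ (Fin d)) := S.B false ∩ S.sb false ⁻¹' D with hD'
    set D'' : Set (EuclideanSpace ℝ (Fin d)) := S.C false ∩ S.sc false ⁻¹' D with hD''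
    have mD' : MeasurableSet D' := (S.hB _).inter (S.hsb _ hD)
    have mD'' : MeasurableSet D'' := (S.hC _).inter (S.hsc _ hD)
    -- membership facts
    have f1 : ∀ x ∈ S.A, (S.b false x ∈ D' ↔ x ∈ D) := by
      intro x hx
      rw [hD', mem_inter_iff, mem_preimage, S.sbb false x hx]
      exact ⟨fun h => h.2, fun h => ⟨S.bB false x hx, h⟩⟩
    have f2 : ∀ x ∈ S.A, S.b true x ∉ D' := fun x hx h => S.dBB _ h.1 (S.bB true x hx)
    have f3 : ∀ k, ∀ x ∈ S.A, S.c k x ∉ D' := fun k x hx h => S.dBC _ _ _ h.1 (S.cC k x hx)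
    have f4 : ∀ x ∈ S.A, x ∉ D' := fun x hx h => S.dAB _ x hx h.1
    have g1 : ∀ x ∈ S.A, (S.c false x ∈ D'' ↔ x ∈ D) := by
      intro x hx
      rw [hD'', mem_inter_iff, mem_preimage, S.scc false x hx]
      exact ⟨fun h => h.2, fun h => ⟨S.cC false x hx, h⟩⟩
    have g2 : ∀ x ∈ S.A, S.c true x ∉ D'' := fun x hx h => S.dCC _ h.1 (S.cC true x hx)
    have g3 : ∀ k, ∀ x ∈ S.A, S.b k x ∉ D'' := fun k x hx h => S.dBC _ _ _ (S.bB k x hx) h.1
    have g4 : ∀ x ∈ S.A, x ∉ D'' := fun x hx h => S.dAC _ x hx h.1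
    -- measures
    have e1 : S.mu D' = (6 : ℝ≥0∞)⁻¹ * S.γ D := by
      rw [S.mu_apply mD', S.γ_zero f4, S.γ_congr (D := S.b false ⁻¹' D') (D' := D) f1,
        S.γ_zero (D := S.c false ⁻¹' D') (f3 false), S.γ_zero (D := S.b true ⁻¹' D') f2,
        S.γ_zero (D := S.c true ⁻¹' D') (f3 true)]
      simp
    have e2 : S.mu D'' = (6 : ℝ≥0∞)⁻¹ * S.γ D := by
      rw [S.mu_apply mD'', S.γ_zero g4, S.γ_congr (D := S.c false ⁻¹' D'') (D' := D) g1,
        S.γ_zero (D := S.b false ⁻¹' D'') (g3 false), S.γ_zero (D := S.c true ⁻¹' D'') g2,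
        S.γ_zero (D := S.b true ⁻¹' D'') (g3 true)]
      simp
    have mDA : MeasurableSet (D ∩ A₀) := hD.inter hA₀m
    have h1 : ∀ k, ∀ x ∈ S.A, S.b k x ∉ D ∩ A₀ :=
      fun k x hx h => S.dAB k _ (hDA h.1) (S.bB k x hx)
    have h2' : ∀ k, ∀ x ∈ S.A, S.c k x ∉ D ∩ A₀ :=
      fun k x hx h => S.dAC k _ (hDA h.1) (S.cC k x hx)
    have e3 : S.mu (D ∩ A₀) = (3 : ℝ≥0∞)⁻¹ * S.γ (D ∩ A₀) := by
      rw [S.mu_apply mDA, S.γ_zero (D := S.b false ⁻¹' (D ∩ A₀)) (h1 false),
        S.γ_zero (D := S.b true ⁻¹' (D ∩ A₀)) (h1 true),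
        S.γ_zero (D := S.c false ⁻¹' (D ∩ A₀)) (h2' false),
        S.γ_zero (D := S.c true ⁻¹' (D ∩ A₀)) (h2' true)]
      simp
    -- the pointwise identity
    classical
    have pw : ∀ᵐ x ∂S.mu, D'.indicator (fun _ => (1 : ℝ≥0∞)) (T₂ x) +
        D'.indicator (fun _ => (1 : ℝ≥0∞)) (T₃ x) =
        (D ∩ A₀).indicator (fun _ => (1 : ℝ≥0∞)) x + D''.indicator (fun _ => (1 : ℝ≥0∞)) x := by
      filter_upwards [good] with x hx
      -- helper to evaluate indicators
      have key : ∀ y z : EuclideanSpace ℝ (Fin d), 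
          ((x ∈ S.A ∧ ∃ k, (y = S.b k x ∧ z = S.c k x)) →
            D'.indicator (fun _ => (1 : ℝ≥0∞)) y + D'.indicator (fun _ => (1 : ℝ≥0∞)) z =
            (if x ∈ D ∧ y ∈ S.B false then 1 else 0)) := by
        rintro y z ⟨hxA, k, rfl, rfl⟩
        rw [indicator_of_notMem (f3 k x hxA), add_zero]
        cases k
        · by_cases hxD : x ∈ D
          · rw [indicator_of_mem ((f1 x hxA).2 hxD), if_pos ⟨hxD, S.bB false x hxA⟩]
          · rw [indicator_of_notMem (fun h => hxD ((f1 x hxA).1 h)), if_neg (fun h => hxD h.1)]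
        · rw [indicator_of_notMem (f2 x hxA), if_neg (fun h => S.dBB _ h.2 (S.bB true x hxA))]
      rcases hx with ⟨hxA, k, ⟨h5, h6⟩ | ⟨h5, h6⟩⟩ | ⟨hyA, k, ⟨h5, h6⟩ | ⟨h5, h6⟩⟩ |
        ⟨hyA, k, ⟨h5, h6⟩ | ⟨h5, h6⟩⟩
      · -- x ∈ A, T₂ x = b, T₃ x = c
        rw [key (T₂ x) (T₃ x) ⟨hxA, k, h5, h6⟩, indicator_of_notMem (g4 x hxA), add_zero]
        have : (x ∈ D ∧ T₂ x ∈ S.B false) ↔ x ∈ D ∩ A₀ := by
          rw [hA₀]
          constructor
          · rintro ⟨h7, h8⟩; exact ⟨h7, hxA, Or.inl h8⟩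
          · rintro ⟨h7, _, h8 | h8⟩
            · exact ⟨h7, h8⟩
            · exfalso
              rw [mem_preimage, h6] at h8
              exact S.dBC _ _ _ h8 (S.cC k x hxA)
        rw [indicator_apply]
        simp only [this]
      · -- x ∈ A, T₃ x = b, T₂ x = c
        rw [add_comm (D'.indicator _ _), key (T₃ x) (T₂ x) ⟨hxA, k, h5, h6⟩,
          indicator_of_notMem (g4 x hxA), add_zero]
        have : (x ∈ D ∧ T₃ x ∈ S.B false) ↔ x ∈ D ∩ A₀ := by
          rw [hA₀]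
          constructor
          · rintro ⟨h7, h8⟩; exact ⟨h7, hxA, Or.inr h8⟩
          · rintro ⟨h7, _, h8 | h8⟩
            · exfalso
              rw [mem_preimage, h6] at h8
              exact S.dBC _ _ _ h8 (S.cC k x hxA)
            · exact ⟨h7, h8⟩
        rw [indicator_apply]
        simp only [this]
      · -- T₂ x ∈ A, x = b, T₃ x = c
        have hxD : x ∉ D := fun h => S.dAB k x (hDA h) (by rw [h5]; exact S.bB k _ hyA)
        have hxDA : x ∉ D ∩ A₀ := fun h => hxD h.1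
        have q3 := g3 k _ hyA
        rw [← h5] at q3
        rw [indicator_of_notMem (f4 _ hyA), h6, indicator_of_notMem (f3 k _ hyA),
          indicator_of_notMem hxDA, indicator_of_notMem q3]
      · -- T₂ x ∈ A, T₃ x = b, x = c
        have hxD : x ∉ D := fun h => S.dAC k x (hDA h) (by rw [h6]; exact S.cC k _ hyA)
        have hxDA : x ∉ D ∩ A₀ := fun h => hxD h.1
        rw [indicator_of_notMem (f4 _ hyA), indicator_of_notMem hxDA, zero_add, zero_add]
        cases k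
        · have q1 := f1 _ hyA
          have q2 := g1 _ hyA
          rw [← h5] at q1
          rw [← h6] at q2
          rw [indicator_apply, indicator_apply]
          simp only [q1, q2]
        · have q1 := f2 _ hyA
          have q2 := g2 _ hyA
          rw [← h5] at q1
          rw [← h6] at q2
          rw [indicator_of_notMem q1, indicator_of_notMem q2]
      · -- T₃ x ∈ A, x = b, T₂ x = c
        have hxD : x ∉ D := fun h => S.dAB k x (hDA h) (by rw [h5]; exact S.bB k _ hyA)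
        have q3 := g3 k _ hyA
        rw [← h5] at q3
        have q4 := f3 k _ hyA
        rw [← h6] at q4
        rw [indicator_of_notMem (f4 _ hyA), indicator_of_notMem q4,
          indicator_of_notMem (fun h : x ∈ D ∩ A₀ => hxD h.1), indicator_of_notMem q3]
      · -- T₃ x ∈ A, T₂ x = b, x = c
        have hxD : x ∉ D := fun h => S.dAC k x (hDA h) (by rw [h6]; exact S.cC k _ hyA)
        have hxDA : x ∉ D ∩ A₀ := fun h => hxD h.1
        rw [indicator_of_notMem (f4 _ hyA), indicator_of_notMem hxDA, add_zero, zero_add]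
        cases k
        · have q1 := f1 _ hyA
          have q2 := g1 _ hyA
          rw [← h5] at q1
          rw [← h6] at q2
          rw [indicator_apply, indicator_apply]
          simp only [q1, q2]
        · have q1 := f2 _ hyA
          have q2 := g2 _ hyA
          rw [← h5] at q1
          rw [← h6] at q2
          rw [indicator_of_notMem q1, indicator_of_notMem q2]
    have i1 := lintegral_congr_ae pw
    have mi : Measurable (D'.indicator (fun _ => (1 : ℝ≥0∞))) := measurable_const.indicator mD'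
    have mi2 : Measurable (fun x => D'.indicator (fun _ => (1 : ℝ≥0∞)) (T₂ x)) := mi.comp m2
    have mi3 : Measurable (D''.indicator (fun _ => (1 : ℝ≥0∞))) := measurable_const.indicator mD''
    rw [lintegral_add_left mi2, lintegral_add_right _ mi3, lintegral_indicator_const mDA,
      lintegral_indicator_const mD''] at i1
    have j2 : ∫⁻ x, D'.indicator (fun _ => (1 : ℝ≥0∞)) (T₂ x) ∂S.mu = S.mu D' := by
      rw [← lintegral_map mi m2, h2, lintegral_indicator_const mD', one_mul]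
    have j3 : ∫⁻ x, D'.indicator (fun _ => (1 : ℝ≥0∞)) (T₃ x) ∂S.mu = S.mu D' := by
      rw [← lintegral_map mi m3, h3, lintegral_indicator_const mD', one_mul]
    rw [j2, j3, one_mul, one_mul, e1, e2, e3] at i1
    -- cancel
    have hfin : (6 : ℝ≥0∞)⁻¹ * S.γ D ≠ ⊤ :=
      ENNReal.mul_ne_top (by simp) (measure_ne_top _ _)
    have i2 : (6 : ℝ≥0∞)⁻¹ * S.γ D = (3 : ℝ≥0∞)⁻¹ * S.γ (D ∩ A₀) :=
      (ENNReal.add_left_inj hfin).1 i1
    rw [inv36, add_mul, ← mul_add] at i2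
    exact (ENNReal.mul_right_inj (by simp) (by simp)).1 i2
  have cA := count S.A S.hA subset_rfl
  have cA₀ := count A₀ hA₀m inter_subset_left
  rw [inter_self] at cA₀
  have hAA : S.A ∩ A₀ = A₀ := inter_eq_right.2 inter_subset_left
  rw [hAA] at cA
  have hA1 : S.γ S.A = 1 := by
    have : S.γ S.A = S.γ univ := S.γ_congr (fun x hx => by simp [hx])
    rw [this, measure_univ]
  have hz : S.γ A₀ = 0 := by
    have hfin : S.γ A₀ ≠ ⊤ := measure_ne_top _ _
    have : S.γ A₀ + 0 = S.γ A₀ + S.γ A₀ := by rw [add_zero]; exact cA₀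
    exact ((ENNReal.add_right_inj hfin).1 this).symm
  rw [hA1, hz, add_zero] at cA
  exact one_ne_zero cA

end Sh

end Crest.Agent.H12.Split
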