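import Crest.Agent.H12.SplitApprox
import Crest.Agent.H12.SplitCoreMk

set_option autoImplicit false
open Real Set Filter MeasureTheory
open scoped Topology ENNReal ContDiff
open Crest.AnalysisR.OT

namespace Crest.Agent.H12.Split

variable {d : ℕ}

lemma measurable_measOfDensity {h : EuclideanSpace ℝ (Fin d) → ℝ} (hh : Measurable h) :
    Measurable (fun x => ENNReal.ofReal (h x)) := hh.ennreal_ofReal

lemma map_R (R : EuclideanSpace ℝ (Fin d) ≃ₗᵢ[ℝ] EuclideanSpace ℝ (Fin d))
    (RR : ∀ x, R (R x) = x) {h : EuclideanSpace ℝ (Fin d) → ℝ} (hh : Measurable h) :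
    (measOfDensity h).map R = measOfDensity (fun x => h (R x)) := by
  have hR : MeasurePreserving R (volume : Measure (EuclideanSpace ℝ (Fin d))) volume :=
    R.measurePreserving
  ext D hD
  rw [Measure.map_apply hR.measurable hD]
  unfold measOfDensity
  have hf : Measurable (fun x => ENNReal.ofReal (h (R x))) := (hh.comp hR.measurable).ennreal_ofReal
  rw [withDensity_apply _ (hR.measurable hD), withDensity_apply _ hD,
    ← hR.setLIntegral_comp_preimage hD hf]
  simp only [RR]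

section Bump
variable (η : ℝ)

noncomputable def q0 (x : EuclideanSpace ℝ (Fin d)) : ℝ :=
  Real.smoothTransition (1 - (2 / η) ^ 2 * ‖x‖ ^ 2)

lemma q0_contDiff : ContDiff ℝ ∞ (q0 (d := d) η) := by
  unfold q0
  exact Real.smoothTransition.contDiff.comp (contDiff_const.sub (contDiff_const.mul (contDiff_norm_sq ℝ)))

lemma q0_nonneg (x : EuclideanSpace ℝ (Fin d)) : 0 ≤ q0 η x := Real.smoothTransition.nonneg _

lemma q0_zero (hη : 0 < η) {x : EuclideanSpace ℝ (Fin d)} (hx : η / 2 ≤ ‖x‖) : q0 η x = 0 := by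
  unfold q0
  apply Real.smoothTransition.zero_of_nonpos
  have h1 : 1 ≤ (2 / η) * ‖x‖ := by
    rw [div_mul_eq_mul_div, le_div_iff₀ hη]; linarith
  have h2 : 1 ≤ ((2 / η) * ‖x‖) ^ 2 := one_le_pow₀ h1
  rw [mul_pow] at h2
  linarith

lemma q0_zero_pos : 0 < q0 η (0 : EuclideanSpace ℝ (Fin d)) := by
  unfold q0
  apply Real.smoothTransition.pos_of_pos
  simp

lemma q0_tsupport (hη : 0 < η) : tsupport (q0 (d := d) η) ⊆ Metric.closedBall 0 (η / 2) := by
  refine closure_minimal ?_ Metric.isClosed_closedBall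
  intro x hx
  rw [mem_closedBall_zero_iff]
  by_contra h
  exact hx (q0_zero η hη (le_of_lt (not_le.1 h)))

lemma q0_compact (hη : 0 < η) : HasCompactSupport (q0 (d := d) η) :=
  HasCompactSupport.of_support_subset_isCompact (isCompact_closedBall _ _)
    (subset_closure.trans (q0_tsupport η hη))

lemma q0_R (R : EuclideanSpace ℝ (Fin d) ≃ₗᵢ[ℝ] EuclideanSpace ℝ (Fin d))
    (x : EuclideanSpace ℝ (Fin d)) : q0 η (R x) = q0 η x := by
  unfold q0; rw [R.norm_map]

end Bump

/-- existence of the base bump -/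
lemma exists_bump (d : ℕ) {η : ℝ} (hη : 0 < η) : ∃ q : EuclideanSpace ℝ (Fin d) → ℝ,
    ContDiff ℝ ∞ q ∧ (∀ x, 0 ≤ q x) ∧ HasCompactSupport q ∧ tsupport q ⊆ Metric.ball 0 η ∧
    (∀ R : EuclideanSpace ℝ (Fin d) ≃ₗᵢ[ℝ] EuclideanSpace ℝ (Fin d), ∀ x, q (R x) = q x) ∧
    ∫⁻ x, ENNReal.ofReal (q x ^ 2) = 1 := by
  have hc : Continuous (fun x : EuclideanSpace ℝ (Fin d) => q0 η x ^ 2) :=
    (q0_contDiff η).continuous.pow 2
  have hcs : HasCompactSupport (fun x : EuclideanSpace ℝ (Fin d) => q0 η x ^ 2) := by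
    have := (q0_compact (d := d) η hη).comp_left (g := fun t : ℝ => t ^ 2) (by simp)
    exact this
  have hint : Integrable (fun x : EuclideanSpace ℝ (Fin d) => q0 η x ^ 2) :=
    hc.integrable_of_hasCompactSupport hcs
  set I := ∫ x : EuclideanSpace ℝ (Fin d), q0 η x ^ 2 with hI
  have hIpos : 0 < I := by
    rw [hI, integral_pos_iff_support_of_nonneg (fun x => by positivity) hint]
    have hopen : IsOpen (Function.support fun x : EuclideanSpace ℝ (Fin d) => q0 η x ^ 2) :=
      hc.isOpen_support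
    refine hopen.measure_pos volume ⟨0, ?_⟩
    rw [Function.mem_support]
    have := q0_zero_pos (d := d) η
    positivity
  refine ⟨fun x => (√I)⁻¹ * q0 η x, contDiff_const.mul (q0_contDiff η), fun x => ?_, ?_, ?_, ?_, ?_⟩
  · exact mul_nonneg (by positivity) (q0_nonneg η x)
  · exact (q0_compact η hη).mul_left
  · refine (closure_mono ?_).trans ((q0_tsupport η hη).trans
      (Metric.closedBall_subset_ball (by linarith)))
    intro x hx
    rw [Function.mem_support] at hx ⊢
    exact fun h => hx (by rw [h, mul_zero])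
  · intro R x
    simp only [q0_R]
  · have h1 : ∀ x : EuclideanSpace ℝ (Fin d), ((√I)⁻¹ * q0 η x) ^ 2 = I⁻¹ * (q0 η x ^ 2) := by
      intro x
      rw [mul_pow, inv_pow, sq_sqrt hIpos.le]
    simp only [h1]
    rw [← ofReal_integral_eq_lintegral_ofReal (hint.const_mul _)
      (Eventually.of_forall fun x => by positivity), integral_const_mul, ← hI,
      inv_mul_cancel₀ hIpos.ne', ENNReal.ofReal_one]

section Assemble
variable {s : ℝ} (c : Core d s)

lemma measurable_tripleCost (s : ℝ) : Measurable (fun p : EuclideanSpace ℝ (Fin d) ×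
    EuclideanSpace ℝ (Fin d) × EuclideanSpace ℝ (Fin d) => tripleCost s p) := by
  unfold tripleCost pairCost
  have m1 : Measurable (fun p : EuclideanSpace ℝ (Fin d) × EuclideanSpace ℝ (Fin d) ×
    EuclideanSpace ℝ (Fin d) => p.1) := measurable_fst
  have m2 : Measurable (fun p : EuclideanSpace ℝ (Fin d) × EuclideanSpace ℝ (Fin d) ×
    EuclideanSpace ℝ (Fin d) => p.2.1) := measurable_fst.comp measurable_snd
  have m3 : Measurable (fun p : EuclideanSpace ℝ (Fin d) × EuclideanSpace ℝ (Fin d) ×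
    EuclideanSpace ℝ (Fin d) => p.2.2) := measurable_snd.comp measurable_snd
  exact (((m1.sub m2).norm.ennreal_ofReal.pow_const _).add
    ((m1.sub m3).norm.ennreal_ofReal.pow_const _)).add
    ((m2.sub m3).norm.ennreal_ofReal.pow_const _)

lemma tripleCost_isom (s : ℝ) (R : EuclideanSpace ℝ (Fin d) ≃ₗᵢ[ℝ] EuclideanSpace ℝ (Fin d))
    (x y z : EuclideanSpace ℝ (Fin d)) : tripleCost s (R x, R y, R z) = tripleCost s (x, y, z) := by
  unfold tripleCost pairCost
  simp only
  rw [← map_sub, ← map_sub, ← map_sub, R.norm_map, R.norm_map, R.norm_map]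

/-- sheet maps -/
noncomputable def Core.bm : Bool → EuclideanSpace ℝ (Fin d) → EuclideanSpace ℝ (Fin d)
  | false => totMap c.Tb
  | true => fun x => c.R (totMap c.Tb (c.R x))
noncomputable def Core.cm : Bool → EuclideanSpace ℝ (Fin d) → EuclideanSpace ℝ (Fin d)
  | false => totMap c.Tc
  | true => fun x => c.R (totMap c.Tc (c.R x))
noncomputable def Core.sbm : Bool → EuclideanSpace ℝ (Fin d) → EuclideanSpace ℝ (Fin d)
  | false => totMap c.Tb.symm
  | true => fun x => c.R (totMap c.Tb.symm (c.R x))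
noncomputable def Core.scm : Bool → EuclideanSpace ℝ (Fin d) → EuclideanSpace ℝ (Fin d)
  | false => totMap c.Tc.symm
  | true => fun x => c.R (totMap c.Tc.symm (c.R x))
def Core.Bs : Bool → Set (EuclideanSpace ℝ (Fin d))
  | false => c.Tb.target
  | true => c.R ⁻¹' c.Tb.target
def Core.Cs : Bool → Set (EuclideanSpace ℝ (Fin d))
  | false => c.Tc.target
  | true => c.R ⁻¹' c.Tc.target

lemma Core.RA {x : EuclideanSpace ℝ (Fin d)} (hx : x ∈ Metric.ball (0 : EuclideanSpace ℝ (Fin d)) c.η) :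
    c.R x ∈ Metric.ball (0 : EuclideanSpace ℝ (Fin d)) c.η := by
  rw [mem_ball_zero_iff] at hx ⊢
  rwa [c.R.norm_map]

lemma Core.tb {x : EuclideanSpace ℝ (Fin d)} (hx : x ∈ Metric.ball (0 : EuclideanSpace ℝ (Fin d)) c.η) :
    totMap c.Tb x = c.Tb x := totMap_eq (by rw [c.srcb]; exact hx)
lemma Core.tc {x : EuclideanSpace ℝ (Fin d)} (hx : x ∈ Metric.ball (0 : EuclideanSpace ℝ (Fin d)) c.η) :
    totMap c.Tc x = c.Tc x := totMap_eq (by rw [c.srcc]; exact hx)
lemma Core.tb_mem {x : EuclideanSpace ℝ (Fin d)} (hx : x ∈ Metric.ball (0 : EuclideanSpace ℝ (Fin d)) c.η) :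
    c.Tb x ∈ c.Tb.target := c.Tb.map_source (by rw [c.srcb]; exact hx)
lemma Core.tc_mem {x : EuclideanSpace ℝ (Fin d)} (hx : x ∈ Metric.ball (0 : EuclideanSpace ℝ (Fin d)) c.η) :
    c.Tc x ∈ c.Tc.target := c.Tc.map_source (by rw [c.srcc]; exact hx)
lemma Core.tbs {x : EuclideanSpace ℝ (Fin d)} (hx : x ∈ Metric.ball (0 : EuclideanSpace ℝ (Fin d)) c.η) :
    totMap c.Tb.symm (c.Tb x) = x := by
  have h1 : totMap c.Tb.symm (c.Tb x) = c.Tb.symm (c.Tb x) := totMap_eq (c.tb_mem hx)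
  rw [h1, c.Tb.left_inv (by rw [c.srcb]; exact hx)]
lemma Core.tcs {x : EuclideanSpace ℝ (Fin d)} (hx : x ∈ Metric.ball (0 : EuclideanSpace ℝ (Fin d)) c.η) :
    totMap c.Tc.symm (c.Tc x) = x := by
  have h1 : totMap c.Tc.symm (c.Tc x) = c.Tc.symm (c.Tc x) := totMap_eq (c.tc_mem hx)
  rw [h1, c.Tc.left_inv (by rw [c.srcc]; exact hx)]

/-- the base measure -/
theorem exists_sh (hs : 0 < s) {q : EuclideanSpace ℝ (Fin d) → ℝ} (hq : ContDiff ℝ ∞ q)
    (hqb : tsupport q ⊆ Metric.ball 0 c.η)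
    (hq1 : ∫⁻ x, ENNReal.ofReal (q x ^ 2) = 1) :
    ∃ S : Sh d, S.γ = measOfDensity (fun x => q x ^ 2) ∧ S.b = c.bm ∧ S.c = c.cm ∧
      S.cost = fun p => tripleCost s p := by
  have hRm : Measurable c.R := c.R.continuous.measurable
  have hqm : Measurable (fun x => ENNReal.ofReal (q x ^ 2)) :=
    (hq.continuous.measurable.pow_const 2).ennreal_ofReal
  have wconv : ∀ x : EuclideanSpace ℝ (Fin d), (x ∈ Metric.ball 0 c.η ∨ ∃ k, x ∈ c.Bs k ∨ x ∈ c.Cs k) →
      (x ∈ Metric.ball 0 c.η ∨ x ∈ c.Tb.target ∨ x ∈ c.Tc.target ∨ c.R x ∈ c.Tb.target ∨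
        c.R x ∈ c.Tc.target) := by
    rintro x (h | ⟨k, h | h⟩)
    · exact Or.inl h
    · cases k
      · exact Or.inr (Or.inl h)
      · exact Or.inr (Or.inr (Or.inr (Or.inl h)))
    · cases k
      · exact Or.inr (Or.inr (Or.inl h))
      · exact Or.inr (Or.inr (Or.inr (Or.inr h)))
  have mconv : ∀ x y z : EuclideanSpace ℝ (Fin d), x ∈ Metric.ball 0 c.η → Mat c.R c.Tb c.Tc x y z →
      ∃ k, (y = c.bm k x ∧ z = c.cm k x) ∨ (z = c.bm k x ∧ y = c.cm k x) := by
    intro x y z hx hM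
    have hx' := c.RA hx
    rcases hM with ⟨h1, h2⟩ | ⟨h1, h2⟩ | ⟨h1, h2⟩ | ⟨h1, h2⟩
    · refine ⟨false, Or.inl ⟨?_, ?_⟩⟩
      · change y = totMap c.Tb x; rw [c.tb hx, h1]
      · change z = totMap c.Tc x; rw [c.tc hx, h2]
    · refine ⟨false, Or.inr ⟨?_, ?_⟩⟩
      · change z = totMap c.Tb x; rw [c.tb hx, h1]
      · change y = totMap c.Tc x; rw [c.tc hx, h2]
    · refine ⟨true, Or.inl ⟨?_, ?_⟩⟩
      · change y = c.R (totMap c.Tb (c.R x)); rw [c.tb hx', ← h1, c.RR]
      · change z = c.R (totMap c.Tc (c.R x)); rw [c.tc hx', ← h2, c.RR]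
    · refine ⟨true, Or.inr ⟨?_, ?_⟩⟩
      · change z = c.R (totMap c.Tb (c.R x)); rw [c.tb hx', ← h1, c.RR]
      · change y = c.R (totMap c.Tc (c.R x)); rw [c.tc hx', ← h2, c.RR]
  refine ⟨{
    γ := measOfDensity (fun x => q x ^ 2)
    prob := ⟨?_⟩
    ac := withDensity_absolutelyContinuous _ _
    A := Metric.ball 0 c.η
    hA := measurableSet_ball
    hγA := ?_
    b := c.bm
    c := c.cm
    sb := c.sbm
    sc := c.scm
    hb := ?_
    hc := ?_
    hsb := ?_
    hsc := ?_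
    B := c.Bs
    C := c.Cs
    hB := ?_
    hC := ?_
    bB := ?_
    cC := ?_
    sbb := ?_
    scc := ?_
    dAB := ?_
    dAC := ?_
    dBC := ?_
    dBB := fun x hx => c.dBRB x hx
    dCC := fun x hx => c.dCRC x hx
    U := fun x => ENNReal.ofReal (c.u x)
    hU := c.hum.ennreal_ofReal
    hU2 := ?_
    cost := fun p => tripleCost s p
    hcost := measurable_tripleCost s
    s23 := fun x y z => tripleCost_swap23 s x y z
    s12 := fun x y z => tripleCost_swap12 s x y z
    ineq := fun x y z hx hy hz => (c.P13 x y z (wconv x hx) (wconv y hy) (wconv z hz)).1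
    eqc := ?_
    P2 := ?_
    P4 := ?_ }, rfl, rfl, rfl, rfl⟩
  · unfold measOfDensity
    rw [withDensity_apply _ MeasurableSet.univ, setLIntegral_univ]
    exact hq1
  · unfold measOfDensity
    rw [ae_withDensity_iff hqm]
    refine Eventually.of_forall fun x hx => ?_
    by_contra h
    apply hx
    have : q x = 0 := by
      by_contra h0
      exact h (hqb (subset_tsupport q h0))
    simp [this]
  · rintro (_ | _)
    · exact measurable_totMap _
    · exact hRm.comp ((measurable_totMap _).comp hRm)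
  · rintro (_ | _)
    · exact measurable_totMap _
    · exact hRm.comp ((measurable_totMap _).comp hRm)
  · rintro (_ | _)
    · exact measurable_totMap _
    · exact hRm.comp ((measurable_totMap _).comp hRm)
  · rintro (_ | _)
    · exact measurable_totMap _
    · exact hRm.comp ((measurable_totMap _).comp hRm)
  · rintro (_ | _)
    · exact c.Tb.open_target.measurableSet
    · exact hRm c.Tb.open_target.measurableSet
  · rintro (_ | _)
    · exact c.Tc.open_target.measurableSet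
    · exact hRm c.Tc.open_target.measurableSet
  · rintro (_ | _) x hx
    · change totMap c.Tb x ∈ c.Tb.target; rw [c.tb hx]; exact c.tb_mem hx
    · change c.R (c.R (totMap c.Tb (c.R x))) ∈ c.Tb.target
      rw [c.RR, c.tb (c.RA hx)]; exact c.tb_mem (c.RA hx)
  · rintro (_ | _) x hx
    · change totMap c.Tc x ∈ c.Tc.target; rw [c.tc hx]; exact c.tc_mem hx
    · change c.R (c.R (totMap c.Tc (c.R x))) ∈ c.Tc.target
      rw [c.RR, c.tc (c.RA hx)]; exact c.tc_mem (c.RA hx)
  · rintro (_ | _) x hx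
    · change totMap c.Tb.symm (totMap c.Tb x) = x
      rw [c.tb hx, c.tbs hx]
    · change c.R (totMap c.Tb.symm (c.R (c.R (totMap c.Tb (c.R x))))) = x
      rw [c.RR, c.tb (c.RA hx), c.tbs (c.RA hx), c.RR]
  · rintro (_ | _) x hx
    · change totMap c.Tc.symm (totMap c.Tc x) = x
      rw [c.tc hx, c.tcs hx]
    · change c.R (totMap c.Tc.symm (c.R (c.R (totMap c.Tc (c.R x))))) = x
      rw [c.RR, c.tc (c.RA hx), c.tcs (c.RA hx), c.RR]
  · rintro (_ | _) x hx
    · exact c.dAB x hx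
    · exact fun h => c.dAB _ (c.RA hx) h
  · rintro (_ | _) x hx
    · exact c.dAC x hx
    · exact fun h => c.dAC _ (c.RA hx) h
  · rintro (_ | _) (_ | _) x hx
    · exact c.dBC x hx
    · exact c.dBRC x hx
    · intro h
      -- R x ∈ Tb.target, x ∈ Tc.target
      have := c.dBRC (c.R x) hx
      rw [c.RR] at this
      exact this h
    · exact fun h => c.dBC _ hx h
  · intro x
    have : (2 : ℝ≥0∞) = ENNReal.ofReal 2 := by simp
    rw [this]
    exact ENNReal.ofReal_le_ofReal (c.hu2 x)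
  · intro x y z hx hy hz heq
    rcases (c.P13 x y z (wconv x hx) (wconv y hy) (wconv z hz)).2 heq with ⟨h1, h2⟩ | ⟨h1, h2⟩ | ⟨h1, h2⟩
    · exact Or.inl ⟨h1, mconv _ _ _ h1 h2⟩
    · exact Or.inr (Or.inl ⟨h1, mconv _ _ _ h1 h2⟩)
    · exact Or.inr (Or.inr ⟨h1, mconv _ _ _ h1 h2⟩)
  · rintro (_ | _) x hx
    · have := c.P2 x hx
      change _ + ENNReal.ofReal (c.u (totMap c.Tb x)) + ENNReal.ofReal (c.u (totMap c.Tc x)) =
        tripleCost s (x, totMap c.Tb x, totMap c.Tc x)
      rw [c.tb hx, c.tc hx]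
      exact this
    · have := c.P2 (c.R x) (c.RA hx)
      change _ + ENNReal.ofReal (c.u (c.R (totMap c.Tb (c.R x)))) +
        ENNReal.ofReal (c.u (c.R (totMap c.Tc (c.R x)))) =
        tripleCost s (x, c.R (totMap c.Tb (c.R x)), c.R (totMap c.Tc (c.R x)))
      rw [← tripleCost_isom s c.R x, c.tb (c.RA hx), c.tc (c.RA hx), c.huR, c.huR, c.RR, c.RR]
      rw [c.huR] at this
      exact this
  · intro ε hε
    obtain ⟨θ, hθ, h⟩ := c.P4 ε hε
    refine ⟨θ, hθ, ?_⟩
    rintro (_ | _) x hx x' hx' hxx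
    · change tripleCost s (x, totMap c.Tb x', totMap c.Tc x') ≤ _ +
        ENNReal.ofReal (c.u (totMap c.Tb x')) + ENNReal.ofReal (c.u (totMap c.Tc x')) + _
      rw [c.tb hx', c.tc hx']
      exact h x hx x' hx' hxx
    · change tripleCost s (x, c.R (totMap c.Tb (c.R x')), c.R (totMap c.Tc (c.R x'))) ≤ _ +
        ENNReal.ofReal (c.u (c.R (totMap c.Tb (c.R x')))) +
        ENNReal.ofReal (c.u (c.R (totMap c.Tc (c.R x')))) + _
      have h2 := h (c.R x) (c.RA hx) (c.R x') (c.RA hx') (by rw [← map_sub, c.R.norm_map]; exact hxx)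
      rw [← tripleCost_isom s c.R x, c.tb (c.RA hx'), c.tc (c.RA hx'), c.huR, c.huR, c.RR, c.RR]
      rw [c.huR] at h2
      exact h2

end Assemble

end Crest.Agent.H12.Split
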