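import Crest.Agent.H12.SplitLocal

set_option autoImplicit false
open Real Set Filter
open scoped Topology RealInnerProductSpace ContDiff

namespace Crest.Agent.H12.Split

lemma exists_equiv {V : Type*} [NormedAddCommGroup V] [NormedSpace ℝ V] [FiniteDimensional ℝ V]
    (L : V →L[ℝ] V) (hL : ∀ v, L v = 0 → v = 0) : ∃ e : V ≃L[ℝ] V, (e : V →L[ℝ] V) = L := by
  have hinj : Function.Injective (L : V →ₗ[ℝ] V) := (injective_iff_map_eq_zero _).2 hL
  refine ⟨(LinearEquiv.ofInjectiveEndo (L : V →ₗ[ℝ] V) hinj).toContinuousLinearEquiv, ?_⟩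
  ext v; rfl

variable {E : Type*} [NormedAddCommGroup E] [InnerProductSpace ℝ E]

noncomputable def Xi (s K : ℝ) (e r : E) (p : E × E × E) : E × E × E :=
  (p.1, G s (p.1 - p.2.1) + G s (p.1 - p.2.2) + K • p.1,
   G s (p.2.2 - p.2.1) + G s (p.2.2 - p.1) + K • (p.2.2 + e) - r)

noncomputable def DXi (K κ : ℝ) (L : E →L[ℝ] E) : (E × E × E) →L[ℝ] (E × E × E) :=
  (ContinuousLinearMap.fst ℝ E (E × E)).prod
    ((L.comp (ContinuousLinearMap.fst ℝ E (E × E) -
        (ContinuousLinearMap.fst ℝ E E).comp (ContinuousLinearMap.snd ℝ E (E × E))) +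
      L.comp (ContinuousLinearMap.fst ℝ E (E × E) -
        (ContinuousLinearMap.snd ℝ E E).comp (ContinuousLinearMap.snd ℝ E (E × E))) +
      K • ContinuousLinearMap.fst ℝ E (E × E)).prod
    ((κ • L).comp ((ContinuousLinearMap.snd ℝ E E).comp (ContinuousLinearMap.snd ℝ E (E × E)) -
        (ContinuousLinearMap.fst ℝ E E).comp (ContinuousLinearMap.snd ℝ E (E × E))) +
      L.comp ((ContinuousLinearMap.snd ℝ E E).comp (ContinuousLinearMap.snd ℝ E (E × E)) -
        ContinuousLinearMap.fst ℝ E (E × E)) +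
      K • (ContinuousLinearMap.snd ℝ E E).comp (ContinuousLinearMap.snd ℝ E (E × E))))

lemma DXi_apply (K κ : ℝ) (L : E →L[ℝ] E) (p : E × E × E) :
    DXi K κ L p = (p.1, L (p.1 - p.2.1) + L (p.1 - p.2.2) + K • p.1,
      κ • L (p.2.2 - p.2.1) + L (p.2.2 - p.1) + K • p.2.2) := by
  rfl

lemma Xi_hasFDerivAt (s K : ℝ) {e : E} (he : ‖e‖ = 1) (r : E) :
    HasFDerivAt (Xi s K e r) (DXi K ((2 : ℝ) ^ (-s - 2)) (fderiv ℝ (G (E := E) s) e))
      ((0, e, -e) : E × E × E) := by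
  have he0 : e ≠ 0 := by
    intro h; rw [h, norm_zero] at he; exact zero_ne_one he
  set L := fderiv ℝ (G (E := E) s) e with hL
  set κ := (2 : ℝ) ^ (-s - 2) with hκ
  have g1 : HasFDerivAt (G (E := E) s) L ((0 : E) - e) := by
    rw [zero_sub, hL, ← fderiv_G_neg s he0]; exact G_hasFDerivAt s (neg_ne_zero.2 he0)
  have g2 : HasFDerivAt (G (E := E) s) L ((0 : E) - (-e)) := by
    rw [zero_sub, neg_neg, hL]; exact G_hasFDerivAt s he0
  have g3 : HasFDerivAt (G (E := E) s) (κ • L) (-e - e) := by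
    have : -e - e = - ((2 : ℝ) • e) := by rw [two_smul]; abel
    rw [this, hL, ← fderiv_G_two s he0, ← fderiv_G_neg s (smul_ne_zero two_ne_zero he0)]
    exact G_hasFDerivAt s (neg_ne_zero.2 (smul_ne_zero two_ne_zero he0))
  have g4 : HasFDerivAt (G (E := E) s) L (-e - 0) := by
    rw [sub_zero, hL, ← fderiv_G_neg s he0]; exact G_hasFDerivAt s (neg_ne_zero.2 he0)
  have p1 : HasFDerivAt (fun p : E × E × E => p.1) (ContinuousLinearMap.fst ℝ E (E × E))
    ((0, e, -e) : E × E × E) := hasFDerivAt_fst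
  have p2 : HasFDerivAt (fun p : E × E × E => p.2.1)
    ((ContinuousLinearMap.fst ℝ E E).comp (ContinuousLinearMap.snd ℝ E (E × E)))
    ((0, e, -e) : E × E × E) := hasFDerivAt_fst.comp _ hasFDerivAt_snd
  have p3 : HasFDerivAt (fun p : E × E × E => p.2.2)
    ((ContinuousLinearMap.snd ℝ E E).comp (ContinuousLinearMap.snd ℝ E (E × E)))
    ((0, e, -e) : E × E × E) := hasFDerivAt_snd.comp _ hasFDerivAt_snd
  unfold Xi DXi
  refine p1.prodMk (HasFDerivAt.prodMk ?_ ?_)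
  · refine HasFDerivAt.add (HasFDerivAt.add ?_ ?_) (p1.const_smul K)
    · exact HasFDerivAt.comp (g := G s) ((0, e, -e) : E × E × E) g1 (p1.sub p2)
    · exact HasFDerivAt.comp (g := G s) ((0, e, -e) : E × E × E) g2 (p1.sub p3)
  · refine HasFDerivAt.sub_const r (HasFDerivAt.add (HasFDerivAt.add ?_ ?_)
      ((p3.add_const e).const_smul K))
    · exact HasFDerivAt.comp (g := G s) ((0, e, -e) : E × E × E) g3 (p3.sub p2)
    · exact HasFDerivAt.comp (g := G s) ((0, e, -e) : E × E × E) g4 (p3.sub p1)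

lemma Xi_contDiffAt (s K : ℝ) (e r : E) {p : E × E × E} (h1 : p.1 - p.2.1 ≠ 0)
    (h2 : p.1 - p.2.2 ≠ 0) (h3 : p.2.2 - p.2.1 ≠ 0) {n : WithTop ℕ∞} :
    ContDiffAt ℝ n (Xi s K e r) p := by
  have h4 : p.2.2 - p.1 ≠ 0 := by
    intro h; apply h2; rw [← neg_sub, h, neg_zero]
  have p1 : ContDiffAt ℝ n (fun p : E × E × E => p.1) p := contDiffAt_fst
  have p2 : ContDiffAt ℝ n (fun p : E × E × E => p.2.1) p := contDiffAt_fst.comp _ contDiffAt_snd
  have p3 : ContDiffAt ℝ n (fun p : E × E × E => p.2.2) p := contDiffAt_snd.comp _ contDiffAt_snd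
  unfold Xi
  refine p1.prodMk (ContDiffAt.prodMk ?_ ?_)
  · refine ContDiffAt.add (ContDiffAt.add ?_ ?_) (p1.const_smul K)
    · exact ContDiffAt.comp (g := G s) p (G_contDiffAt s h1) (p1.sub p2)
    · exact ContDiffAt.comp (g := G s) p (G_contDiffAt s h2) (p1.sub p3)
  · refine ContDiffAt.sub (ContDiffAt.add (ContDiffAt.add ?_ ?_) ((p3.add contDiffAt_const).const_smul K))
      contDiffAt_const
    · exact ContDiffAt.comp (g := G s) p (G_contDiffAt s h3) (p3.sub p2)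
    · exact ContDiffAt.comp (g := G s) p (G_contDiffAt s h4) (p3.sub p1)

/-- linear algebra of the derivative -/
lemma DXi_inj {K κ : ℝ} {L : E →L[ℝ] E} (hL : ∀ w, L w = 0 → w = 0) (hκ0 : 0 < κ) (hκ1 : κ ≤ 1)
    (hK : (4 + κ⁻¹) * ‖L‖ < K) :
    (∀ p, DXi K κ L p = 0 → p = 0) ∧
    (∀ p w, DXi K κ L p = (w, 0, 0) → p.2.1 = 0 → w = 0) ∧
    (∀ p w, DXi K κ L p = (w, 0, 0) → p.2.2 = 0 → w = 0) := by
  have hl : 0 ≤ ‖L‖ := norm_nonneg _
  have hκi : 1 ≤ κ⁻¹ := (one_le_inv₀ hκ0).2 hκ1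
  have hKpos : 0 < K := lt_of_le_of_lt (by positivity) hK
  -- helper: c * ‖L‖ < K' and K' • v = c • L v' gives v = 0
  have key : ∀ (c K' : ℝ) (v : E), |c| * ‖L‖ < K' → K' • v = c • L v → v = 0 := by
    intro c K' v hc h
    have hK' : 0 < K' := lt_of_le_of_lt (by positivity) hc
    have h1 : K' * ‖v‖ ≤ |c| * ‖L‖ * ‖v‖ := by
      calc K' * ‖v‖ = ‖K' • v‖ := by rw [norm_smul, Real.norm_of_nonneg hK'.le]
        _ = ‖c • L v‖ := by rw [h]
        _ = |c| * ‖L v‖ := by rw [norm_smul, Real.norm_eq_abs]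
        _ ≤ |c| * (‖L‖ * ‖v‖) := by gcongr; exact L.le_opNorm v
        _ = _ := by ring
    by_contra hv
    have : 0 < ‖v‖ := norm_pos_iff.2 hv
    nlinarith
  refine ⟨?_, ?_, ?_⟩
  · rintro ⟨x, y, z⟩ h
    rw [DXi_apply] at h
    simp only [Prod.mk_eq_zero] at h
    obtain ⟨h1, h2, h3⟩ := h
    subst h1
    have h4 : L (y + z) = 0 := by
      have : L (0 - y) + L (0 - z) + K • (0 : E) = - L (y + z) := by
        simp only [map_sub, map_zero, map_add, smul_zero]; abel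
      rw [this, neg_eq_zero] at h2; exact h2
    have h5 : y = -z := eq_neg_of_add_eq_zero_left (hL _ h4)
    subst h5
    have h6 : K • z = (-(1 + 2 * κ)) • L z := by
      have : κ • L (z - -z) + L (z - 0) + K • z = K • z + (1 + 2 * κ) • L z := by
        rw [sub_neg_eq_add, sub_zero, map_add]; module
      rw [this] at h3
      rw [neg_smul]; exact eq_neg_of_add_eq_zero_left h3
    have h7 : z = 0 := by
      refine key _ _ z ?_ h6
      rw [abs_neg, abs_of_pos (by positivity)]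
      nlinarith
    rw [h7]; simp
  · rintro ⟨x, y, z⟩ w h hy
    rw [DXi_apply] at h
    simp only [Prod.mk.injEq] at h hy
    obtain ⟨h1, h2, h3⟩ := h
    subst h1 hy
    have e1 : K • x = L z - (2 : ℝ) • L x := by
      have : L (x - 0) + L (x - z) + K • x = K • x - (L z - (2 : ℝ) • L x) := by
        rw [sub_zero, map_sub]; module
      rw [this] at h2; exact sub_eq_zero.1 h2
    have e2 : K • z = L x - (1 + κ) • L z := by
      have : κ • L (z - 0) + L (z - x) + K • z = K • z - (L x - (1 + κ) • L z) := by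
        rw [sub_zero, map_sub]; module
      rw [this] at h3; exact sub_eq_zero.1 h3
    have n1 : K * ‖x‖ ≤ ‖L‖ * ‖z‖ + 2 * (‖L‖ * ‖x‖) := by
      calc K * ‖x‖ = ‖K • x‖ := by rw [norm_smul, Real.norm_of_nonneg hKpos.le]
        _ = ‖L z - (2 : ℝ) • L x‖ := by rw [e1]
        _ ≤ ‖L z‖ + ‖(2 : ℝ) • L x‖ := norm_sub_le _ _
        _ = ‖L z‖ + 2 * ‖L x‖ := by rw [norm_smul, Real.norm_of_nonneg (by norm_num : (0:ℝ) ≤ 2)]
        _ ≤ _ := by
          have := L.le_opNorm z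
          have := L.le_opNorm x
          linarith
    have n2 : K * ‖z‖ ≤ ‖L‖ * ‖x‖ + (1 + κ) * (‖L‖ * ‖z‖) := by
      calc K * ‖z‖ = ‖K • z‖ := by rw [norm_smul, Real.norm_of_nonneg hKpos.le]
        _ = ‖L x - (1 + κ) • L z‖ := by rw [e2]
        _ ≤ ‖L x‖ + ‖(1 + κ) • L z‖ := norm_sub_le _ _
        _ = ‖L x‖ + (1 + κ) * ‖L z‖ := by
          rw [norm_smul, Real.norm_of_nonneg (by positivity : (0:ℝ) ≤ 1 + κ)]
        _ ≤ _ := by
          have h1 := L.le_opNorm z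
          have h2 := L.le_opNorm x
          have h3 : (1 + κ) * ‖L z‖ ≤ (1 + κ) * (‖L‖ * ‖z‖) := by gcongr
          linarith
    by_contra hw
    have hx : 0 < ‖x‖ := norm_pos_iff.2 hw
    have hz : 0 ≤ ‖z‖ := norm_nonneg z
    have h8 : K * (‖x‖ + ‖z‖) ≤ 3 * ‖L‖ * (‖x‖ + ‖z‖) := by
      have : κ * (‖L‖ * ‖z‖) ≤ 1 * (‖L‖ * ‖z‖) := by gcongr
      nlinarith [mul_nonneg hl hz, mul_nonneg hl hx.le]
    have h9 : 3 * ‖L‖ < K := by nlinarith
    nlinarith
  · rintro ⟨x, y, z⟩ w h hz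
    rw [DXi_apply] at h
    simp only [Prod.mk.injEq] at h hz
    obtain ⟨h1, h2, h3⟩ := h
    subst h1 hz
    have e2 : x = -(κ • y) := by
      have : κ • L (0 - y) + L (0 - x) + K • (0 : E) = - L (x + κ • y) := by
        simp only [map_sub, map_zero, map_add, smul_zero, map_smul]; module
      rw [this, neg_eq_zero] at h3
      exact eq_neg_of_add_eq_zero_left (hL _ h3)
    have e1 : (κ * K) • y = (-(1 + 2 * κ)) • L y := by
      rw [e2] at h2
      have : L (-(κ • y) - y) + L (-(κ • y) - 0) + K • (-(κ • y)) =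
          -((κ * K) • y + (1 + 2 * κ) • L y) := by
        simp only [map_sub, map_neg, map_smul, sub_zero]; module
      rw [this, neg_eq_zero] at h2
      rw [neg_smul]; exact eq_neg_of_add_eq_zero_left h2
    have h7 : y = 0 := by
      refine key _ _ y ?_ e1
      rw [abs_neg, abs_of_pos (by positivity)]
      have h10 : κ * ((4 + κ⁻¹) * ‖L‖) < κ * K := mul_lt_mul_of_pos_left hK hκ0
      have h11 : κ * ((4 + κ⁻¹) * ‖L‖) = (1 + 4 * κ) * ‖L‖ := by field_simp; ring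
      rw [h11] at h10
      nlinarith [mul_nonneg hκ0.le hl]
    rw [e2, h7]; simp

end Crest.Agent.H12.Split
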