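import Crest.Agent.H12.SplitCost

set_option autoImplicit false
open Real Set Filter
open scoped Topology RealInnerProductSpace ContDiff

namespace Crest.Agent.H12.Split

variable {E : Type*} [NormedAddCommGroup E] [InnerProductSpace ℝ E]

lemma G_contDiffAt (s : ℝ) {v : E} (hv : v ≠ 0) {n : WithTop ℕ∞} : ContDiffAt ℝ n (G (E := E) s) v := by
  unfold G
  have : ContDiffAt ℝ n (fun v : E => ‖v‖) v := contDiffAt_norm ℝ hv
  exact ((contDiffAt_const.mul (this.rpow_const_of_ne (norm_ne_zero_iff.2 hv))).smul contDiffAt_id)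

lemma G_neg (s : ℝ) (v : E) : G s (-v) = - G s v := by
  unfold G; rw [norm_neg, smul_neg]

lemma G_hasFDerivAt (s : ℝ) {v : E} (hv : v ≠ 0) :
    HasFDerivAt (G (E := E) s) (fderiv ℝ (G s) v) v :=
  ((G_contDiffAt s hv (n := 1)).differentiableAt one_ne_zero).hasFDerivAt

lemma fderiv_G_apply (s : ℝ) {e : E} (he : ‖e‖ = 1) (w : E) :
    fderiv ℝ (G (E := E) s) e w = (s * (s + 2) * ⟪e, w⟫) • e - s • w := by
  have he0 : e ≠ 0 := by
    intro h; rw [h, norm_zero] at he; exact zero_ne_one he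
  have h1 : HasFDerivAt (fun v : E => ‖v‖ ^ 2) (2 • (innerSL ℝ e)) e :=
    (hasStrictFDerivAt_norm_sq e).hasFDerivAt
  have h2 : HasFDerivAt (fun v : E => (‖v‖ ^ 2) ^ (-(s + 2) / 2))
      ((-(s + 2) / 2 * (‖e‖ ^ 2) ^ (-(s + 2) / 2 - 1)) • (2 • (innerSL ℝ e))) e :=
    h1.rpow_const (Or.inl (by rw [he]; norm_num))
  have h3 : HasFDerivAt (fun v : E => (-s * (‖v‖ ^ 2) ^ (-(s + 2) / 2)) • v)
      (((-s * (‖e‖ ^ 2) ^ (-(s + 2) / 2)) • ContinuousLinearMap.id ℝ E) +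
      ContinuousLinearMap.smulRight ((-s) • ((-(s + 2) / 2 * (‖e‖ ^ 2) ^ (-(s + 2) / 2 - 1)) •
        (2 • (innerSL ℝ e)))) e) e :=
    (h2.const_mul (-s)).smul (hasFDerivAt_id e)
  have h4 : (fun v : E => (-s * (‖v‖ ^ 2) ^ (-(s + 2) / 2)) • v) = G s := by
    funext v
    unfold G
    congr 2
    rw [← rpow_natCast, ← rpow_mul (norm_nonneg v)]; congr 1; push_cast; ring
  rw [h4] at h3
  rw [h3.fderiv]
  simp only [he, _root_.add_apply, _root_.smul_apply,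
    ContinuousLinearMap.smulRight_apply, ContinuousLinearMap.id_apply, one_pow, one_rpow,
    innerSL_apply_apply, smul_eq_mul, nsmul_eq_mul, mul_one, smul_smul]
  rw [add_comm, sub_eq_add_neg, ← neg_smul]
  congr 2
  push_cast
  ring

lemma fderiv_G_injective {s : ℝ} (hs : 0 < s) {e : E} (he : ‖e‖ = 1) {w : E}
    (hw : fderiv ℝ (G (E := E) s) e w = 0) : w = 0 := by
  rw [fderiv_G_apply s he] at hw
  have h1 : ⟪e, (s * (s + 2) * ⟪e, w⟫) • e - s • w⟫ = 0 := by rw [hw, inner_zero_right]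
  rw [inner_sub_right, inner_smul_right, inner_smul_right, real_inner_self_eq_norm_sq, he] at h1
  have h2 : ⟪e, w⟫ = 0 := by
    have : s * (s + 1) * ⟪e, w⟫ = 0 := by linarith
    rcases mul_eq_zero.1 this with h | h
    · exact absurd h (by positivity)
    · exact h
  rw [h2, mul_zero, zero_smul, zero_sub, neg_eq_zero] at hw
  exact (smul_eq_zero.1 hw).resolve_left hs.ne'

lemma fderiv_G_neg (s : ℝ) {v : E} (hv : v ≠ 0) :
    fderiv ℝ (G (E := E) s) (-v) = fderiv ℝ (G s) v := by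
  have h1 : HasFDerivAt (fun v : E => - G s (-v)) (fderiv ℝ (G s) v) (-v) := by
    have h2 : HasFDerivAt (G (E := E) s) (fderiv ℝ (G s) v) (- -v) := by
      rw [neg_neg]; exact G_hasFDerivAt s hv
    have h3 := (h2.comp (-v) (hasFDerivAt_id (-v)).neg).neg
    have h5 : -fderiv ℝ (G (E := E) s) v ∘L (-ContinuousLinearMap.id ℝ E) = fderiv ℝ (G s) v := by
      ext w; simp
    rw [h5] at h3
    exact h3
  have h4 : (fun v : E => - G s (-v)) = G s := by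
    funext v; rw [G_neg, neg_neg]
  rw [h4] at h1
  exact h1.fderiv

lemma fderiv_G_two (s : ℝ) {v : E} (hv : v ≠ 0) :
    fderiv ℝ (G (E := E) s) ((2 : ℝ) • v) = ((2 : ℝ) ^ (-s - 2)) • fderiv ℝ (G s) v := by
  have h2v : (2 : ℝ) • v ≠ 0 := smul_ne_zero two_ne_zero hv
  have h0 : (2⁻¹ : ℝ) • ((2 : ℝ) • v) = v := by
    rw [smul_smul]; norm_num
  have h1 : HasFDerivAt (fun u : E => ((2 : ℝ) ^ (-s - 1)) • G s ((2⁻¹ : ℝ) • u))
      (((2 : ℝ) ^ (-s - 1)) • ((fderiv ℝ (G s) v).comp ((2⁻¹ : ℝ) • ContinuousLinearMap.id ℝ E)))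
      ((2 : ℝ) • v) := by
    have h2 : HasFDerivAt (G (E := E) s) (fderiv ℝ (G s) v) ((2⁻¹ : ℝ) • ((2 : ℝ) • v)) := by
      rw [h0]; exact G_hasFDerivAt s hv
    exact (h2.comp ((2 : ℝ) • v) ((hasFDerivAt_id ((2 : ℝ) • v)).const_smul (2⁻¹ : ℝ))).const_smul _
  have h4 : (fun u : E => ((2 : ℝ) ^ (-s - 1)) • G s ((2⁻¹ : ℝ) • u)) = G s := by
    funext u
    unfold G
    rw [smul_smul, smul_smul, norm_smul, mul_rpow (norm_nonneg _) (norm_nonneg _)]
    congr 1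
    have : ‖(2⁻¹ : ℝ)‖ ^ (-s - 2) = (2 : ℝ) ^ (s + 2) := by
      rw [Real.norm_of_nonneg (by norm_num), inv_rpow (by norm_num), ← rpow_neg (by norm_num)]
      congr 1; ring
    rw [this]
    have h5 : (2 : ℝ) ^ (-s - 1) * (2 : ℝ) ^ (s + 2) = 2 := by
      rw [← rpow_add (by norm_num)]
      have : -s - 1 + (s + 2) = 1 := by ring
      rw [this, rpow_one]
    calc (2 : ℝ) ^ (-s - 1) * (-s * (2 ^ (s + 2) * ‖u‖ ^ (-s - 2))) * 2⁻¹
        = ((2 : ℝ) ^ (-s - 1) * (2 : ℝ) ^ (s + 2)) * 2⁻¹ * (-s * ‖u‖ ^ (-s - 2)) := by ring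
      _ = _ := by rw [h5]; ring
  rw [h4] at h1
  rw [h1.fderiv]
  ext w
  simp only [_root_.smul_apply, ContinuousLinearMap.comp_apply,
    ContinuousLinearMap.id_apply, map_smul, smul_smul]
  congr 1
  have : (2 : ℝ) ^ (-s - 2) = (2 : ℝ) ^ (-s - 1) * (2 : ℝ) ^ (-1 : ℝ) := by
    rw [← rpow_add (by norm_num)]; congr 1; ring
  rw [this, rpow_neg_one]

end Crest.Agent.H12.Split
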