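import Crest.Agent.H12.SplitFinal

set_option autoImplicit false
open Real Set Filter MeasureTheory
open scoped Topology ENNReal ContDiff
open Crest.AnalysisR.OT

namespace Crest.Agent.H12.Split

variable {d : ℕ}

lemma sum_sq_five {a b c e f : ℝ} (h1 : a * b = 0) (h2 : a * c = 0) (h3 : a * e = 0) (h4 : a * f = 0)
    (h5 : b * c = 0) (h6 : b * e = 0) (h7 : b * f = 0) (h8 : c * e = 0) (h9 : c * f = 0)
    (h10 : e * f = 0) :
    ((√3)⁻¹ * a + (√6)⁻¹ * (b + c + e + f)) ^ 2 =
      3⁻¹ * a ^ 2 + 6⁻¹ * (b ^ 2 + c ^ 2 + e ^ 2 + f ^ 2) := by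
  have e3 : ((√3)⁻¹) ^ 2 = (3 : ℝ)⁻¹ := by rw [inv_pow, sq_sqrt (by norm_num)]
  have e6 : ((√6)⁻¹) ^ 2 = (6 : ℝ)⁻¹ := by rw [inv_pow, sq_sqrt (by norm_num)]
  have : ((√3)⁻¹ * a + (√6)⁻¹ * (b + c + e + f)) ^ 2 =
      ((√3)⁻¹) ^ 2 * a ^ 2 + ((√6)⁻¹) ^ 2 * (b ^ 2 + c ^ 2 + e ^ 2 + f ^ 2) +
      2 * (√3)⁻¹ * (√6)⁻¹ * (a * b + a * c + a * e + a * f) +
      2 * ((√6)⁻¹) ^ 2 * (b * c + b * e + b * f + c * e + c * f + e * f) := by ring
  rw [this, h1, h2, h3, h4, h5, h6, h7, h8, h9, h10, e3, e6]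
  ring

theorem main (d : ℕ) (hd : 2 ≤ d) (s : ℝ) (hs : 0 < s) :
    ∃ ρ : EuclideanSpace ℝ (Fin d) → ℝ, (∀ x, 0 ≤ ρ x) ∧ ContDiff ℝ ∞ ρ ∧ HasCompactSupport ρ ∧
      ContDiff ℝ ∞ (fun x => Real.sqrt (ρ x)) ∧ ∫ x, ρ x = 1 ∧
      ∃ S : Sh d, S.mu = measOfDensity ρ ∧ S.cost = fun p => tripleCost s p := by
  obtain ⟨c⟩ := exists_core d hd s hs
  obtain ⟨q, hq, hq0, hqc, hqb, hqR, hq1⟩ := exists_bump d c.hη
  obtain ⟨S, hSγ, hSb, hSc, hScost⟩ := exists_sh c hs hq hqb hq1
  have hqsb : tsupport q ⊆ c.Tb.source := by rw [c.srcb]; exact hqb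
  have hqsc : tsupport q ⊆ c.Tc.source := by rw [c.srcc]; exact hqb
  set pb := pushD c.Tb q with hpb
  set pc := pushD c.Tc q with hpc
  have pbc : ContDiff ℝ ∞ pb := pushD_contDiff c.gb hq hqc hqsb
  have pcc : ContDiff ℝ ∞ pc := pushD_contDiff c.gc hq hqc hqsc
  have pb0 : ∀ x, 0 ≤ pb x := pushD_nonneg hq0
  have pc0 : ∀ x, 0 ≤ pc x := pushD_nonneg hq0
  have hRc : ContDiff ℝ ∞ c.R := c.R.contDiff
  have pbs : HasCompactSupport pb :=
    HasCompactSupport.intro (image_tsupport_compact hqc hqsb) fun x hx => pushD_zero hx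
  have pcs : HasCompactSupport pc :=
    HasCompactSupport.intro (image_tsupport_compact hqc hqsc) fun x hx => pushD_zero hx
  have pbRs : HasCompactSupport (fun x => pb (c.R x)) := pbs.comp_homeomorph c.R.toHomeomorph
  have pcRs : HasCompactSupport (fun x => pc (c.R x)) := pcs.comp_homeomorph c.R.toHomeomorph
  set g : EuclideanSpace ℝ (Fin d) → ℝ := fun x =>
    (√3)⁻¹ * q x + (√6)⁻¹ * (pb x + pc x + pb (c.R x) + pc (c.R x)) with hg
  have hgc : ContDiff ℝ ∞ g :=
    (contDiff_const.mul hq).add (contDiff_const.mul (((pbc.add pcc).add (pbc.comp hRc)).add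
      (pcc.comp hRc)))
  have hg0 : ∀ x, 0 ≤ g x := by
    intro x
    have h1 := hq0 x
    have h2 := pb0 x
    have h3 := pc0 x
    have h4 := pb0 (c.R x)
    have h5 := pc0 (c.R x)
    rw [hg]; positivity
  have hgs : HasCompactSupport g :=
    (hqc.mul_left).add ((((pbs.add pcs).add pbRs).add pcRs).mul_left)
  -- disjointness
  have zq : ∀ x, x ∉ Metric.ball (0 : EuclideanSpace ℝ (Fin d)) c.η → q x = 0 := by
    intro x hx
    by_contra h0
    exact hx (hqb (subset_tsupport q h0))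
  have zb : ∀ x, x ∉ c.Tb.target → pb x = 0 := fun x hx => pushD_of_notMem hx
  have zc : ∀ x, x ∉ c.Tc.target → pc x = 0 := fun x hx => pushD_of_notMem hx
  have hsq : ∀ x, g x ^ 2 = 3⁻¹ * q x ^ 2 + 6⁻¹ * (pb x ^ 2 + pc x ^ 2 + pb (c.R x) ^ 2 +
      pc (c.R x) ^ 2) := by
    intro x
    have prod : ∀ {a b : ℝ} {P Q : Prop}, (¬ P → a = 0) → (¬ Q → b = 0) → (P → ¬ Q) → a * b = 0 := by
      intro a b P Q h1 h2 h3
      by_cases hP : P
      · rw [h2 (h3 hP), mul_zero]
      · rw [h1 hP, zero_mul]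
    refine sum_sq_five ?_ ?_ ?_ ?_ ?_ ?_ ?_ ?_ ?_ ?_
    · exact prod (zq x) (zb x) (c.dAB x)
    · exact prod (zq x) (zc x) (c.dAC x)
    · exact prod (zq x) (zb (c.R x)) (fun h => c.dAB _ (c.RA h))
    · exact prod (zq x) (zc (c.R x)) (fun h => c.dAC _ (c.RA h))
    · exact prod (zb x) (zc x) (c.dBC x)
    · exact prod (zb x) (zb (c.R x)) (c.dBRB x)
    · exact prod (zb x) (zc (c.R x)) (c.dBRC x)
    · refine prod (zc x) (zb (c.R x)) (fun h h' => ?_)
      have := c.dBRC (c.R x) h'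
      rw [c.RR] at this
      exact this h
    · exact prod (zc x) (zc (c.R x)) (c.dCRC x)
    · exact prod (zb (c.R x)) (zc (c.R x)) (c.dBC _)
  -- measures
  have mq : Measurable q := hq.continuous.measurable
  have mpb : Measurable pb := pbc.continuous.measurable
  have mpc : Measurable pc := pcc.continuous.measurable
  have mR : Measurable c.R := c.R.continuous.measurable
  have k1 : S.γ.map (S.b false) = measOfDensity (fun x => pb x ^ 2) := by
    rw [hSγ, hSb]; exact map_totMap c.gb hq hqc hqsb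
  have k2 : S.γ.map (S.c false) = measOfDensity (fun x => pc x ^ 2) := by
    rw [hSγ, hSc]; exact map_totMap c.gc hq hqc hqsc
  have kR : S.γ.map c.R = S.γ := by
    rw [hSγ, map_R c.R c.RR (mq.pow_const 2)]
    simp only [hqR]
  have k3 : S.γ.map (S.b true) = measOfDensity (fun x => pb (c.R x) ^ 2) := by
    have h1 : S.γ.map (S.b true) = ((S.γ.map c.R).map (totMap c.Tb)).map c.R := by
      rw [Measure.map_map mR (measurable_totMap _), Measure.map_map (mR.comp (measurable_totMap _)) mR,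
        hSb]
      rfl
    rw [h1, kR, hSγ, map_totMap c.gb hq hqc hqsb, map_R c.R c.RR (mpb.pow_const 2)]
  have k4 : S.γ.map (S.c true) = measOfDensity (fun x => pc (c.R x) ^ 2) := by
    have h1 : S.γ.map (S.c true) = ((S.γ.map c.R).map (totMap c.Tc)).map c.R := by
      rw [Measure.map_map mR (measurable_totMap _), Measure.map_map (mR.comp (measurable_totMap _)) mR,
        hSc]
      rfl
    rw [h1, kR, hSγ, map_totMap c.gc hq hqc hqsc, map_R c.R c.RR (mpc.pow_const 2)]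
  have hmu : S.mu = measOfDensity (fun x => g x ^ 2) := by
    unfold Sh.mu
    rw [k1, k2, k3, k4, hSγ]
    ext D hD
    unfold measOfDensity
    simp only [Measure.add_apply, Measure.smul_apply, smul_eq_mul, withDensity_apply _ hD]
    have hpt : ∀ x, ENNReal.ofReal (g x ^ 2) = (3 : ℝ≥0∞)⁻¹ * ENNReal.ofReal (q x ^ 2) +
        (6 : ℝ≥0∞)⁻¹ * (ENNReal.ofReal (pb x ^ 2) + ENNReal.ofReal (pc x ^ 2) +
          ENNReal.ofReal (pb (c.R x) ^ 2) + ENNReal.ofReal (pc (c.R x) ^ 2)) := by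
      intro x
      rw [hsq, ENNReal.ofReal_add (by positivity) (by positivity), ENNReal.ofReal_mul (by norm_num),
        ENNReal.ofReal_mul (by norm_num), ENNReal.ofReal_add (by positivity) (by positivity),
        ENNReal.ofReal_add (by positivity) (by positivity),
        ENNReal.ofReal_add (by positivity) (by positivity),
        ENNReal.ofReal_inv_of_pos (by norm_num), ENNReal.ofReal_inv_of_pos (by norm_num)]
      norm_num
    have n1 : Measurable (fun x => ENNReal.ofReal (q x ^ 2)) := (mq.pow_const 2).ennreal_ofReal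
    have n2 : Measurable (fun x => ENNReal.ofReal (pb x ^ 2)) := (mpb.pow_const 2).ennreal_ofReal
    have n3 : Measurable (fun x => ENNReal.ofReal (pc x ^ 2)) := (mpc.pow_const 2).ennreal_ofReal
    have n4 : Measurable (fun x => ENNReal.ofReal (pb (c.R x) ^ 2)) :=
      ((mpb.comp mR).pow_const 2).ennreal_ofReal
    have n5 : Measurable (fun x => ENNReal.ofReal (pc (c.R x) ^ 2)) :=
      ((mpc.comp mR).pow_const 2).ennreal_ofReal
    have n6 : Measurable (fun x => ENNReal.ofReal (pb x ^ 2) + ENNReal.ofReal (pc x ^ 2) +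
        ENNReal.ofReal (pb (c.R x) ^ 2) + ENNReal.ofReal (pc (c.R x) ^ 2)) :=
      ((n2.add n3).add n4).add n5
    simp only [hpt]
    rw [lintegral_add_left (n1.const_mul _), lintegral_const_mul _ n1,
      lintegral_const_mul _ n6,
      lintegral_add_right _ n5, lintegral_add_right _ n4, lintegral_add_right _ n3]
  refine ⟨fun x => g x ^ 2, fun x => by positivity, hgc.pow 2, ?_, ?_, ?_, S, hmu, hScost⟩
  · exact hgs.comp_left (g := fun t : ℝ => t ^ 2) (by simp)
  · have : (fun x => Real.sqrt (g x ^ 2)) = g := by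
      funext x; exact sqrt_sq (hg0 x)
    rw [this]; exact hgc
  · have h1 : (measOfDensity (fun x => g x ^ 2)) univ = 1 := by
      rw [← hmu]; exact S.mu_univ
    unfold measOfDensity at h1
    rw [withDensity_apply _ MeasurableSet.univ, setLIntegral_univ] at h1
    have h2 : AEStronglyMeasurable (fun x => g x ^ 2) (volume : Measure (EuclideanSpace ℝ (Fin d))) :=
      (hgc.continuous.pow 2).aestronglyMeasurable
    have h3 : 0 ≤ᵐ[(volume : Measure (EuclideanSpace ℝ (Fin d)))] fun x => g x ^ 2 :=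
      Eventually.of_forall fun x => by positivity
    rw [integral_eq_lintegral_of_nonneg_ae h3 h2, h1]
    simp

end Crest.Agent.H12.Split
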