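import Crest.Prelude.Def_MultiMarginal

set_option autoImplicit false
open Set Filter MeasureTheory
open scoped Topology ENNReal
open Crest.AnalysisR.OT

namespace Crest.Agent.H12.Split

/-- Abstract two-sheet optimal structure. -/
structure Sh (d : ℕ) where
  γ : Measure (EuclideanSpace ℝ (Fin d))
  prob : IsProbabilityMeasure γ
  ac : γ.AbsolutelyContinuous volume
  A : Set (EuclideanSpace ℝ (Fin d))
  hA : MeasurableSet A
  hγA : ∀ᵐ x ∂γ, x ∈ A
  b : Bool → EuclideanSpace ℝ (Fin d) → EuclideanSpace ℝ (Fin d)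
  c : Bool → EuclideanSpace ℝ (Fin d) → EuclideanSpace ℝ (Fin d)
  sb : Bool → EuclideanSpace ℝ (Fin d) → EuclideanSpace ℝ (Fin d)
  sc : Bool → EuclideanSpace ℝ (Fin d) → EuclideanSpace ℝ (Fin d)
  hb : ∀ k, Measurable (b k)
  hc : ∀ k, Measurable (c k)
  hsb : ∀ k, Measurable (sb k)
  hsc : ∀ k, Measurable (sc k)
  B : Bool → Set (EuclideanSpace ℝ (Fin d))
  C : Bool → Set (EuclideanSpace ℝ (Fin d))
  hB : ∀ k, MeasurableSet (B k)
  hC : ∀ k, MeasurableSet (C k)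
  bB : ∀ k, ∀ x ∈ A, b k x ∈ B k
  cC : ∀ k, ∀ x ∈ A, c k x ∈ C k
  sbb : ∀ k, ∀ x ∈ A, sb k (b k x) = x
  scc : ∀ k, ∀ x ∈ A, sc k (c k x) = x
  dAB : ∀ k, ∀ x ∈ A, x ∉ B k
  dAC : ∀ k, ∀ x ∈ A, x ∉ C k
  dBC : ∀ k l, ∀ x ∈ B k, x ∉ C l
  dBB : ∀ x ∈ B false, x ∉ B true
  dCC : ∀ x ∈ C false, x ∉ C true
  U : EuclideanSpace ℝ (Fin d) → ℝ≥0∞
  hU : Measurable U
  hU2 : ∀ x, U x ≤ 2
  cost : EuclideanSpace ℝ (Fin d) × EuclideanSpace ℝ (Fin d) × EuclideanSpace ℝ (Fin d) → ℝ≥0∞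
  hcost : Measurable cost
  s23 : ∀ x y z, cost (x, z, y) = cost (x, y, z)
  s12 : ∀ x y z, cost (y, x, z) = cost (x, y, z)
  ineq : ∀ x y z, (x ∈ A ∨ ∃ k, x ∈ B k ∨ x ∈ C k) → (y ∈ A ∨ ∃ k, y ∈ B k ∨ y ∈ C k) →
    (z ∈ A ∨ ∃ k, z ∈ B k ∨ z ∈ C k) → U x + U y + U z ≤ cost (x, y, z)
  eqc : ∀ x y z, (x ∈ A ∨ ∃ k, x ∈ B k ∨ x ∈ C k) → (y ∈ A ∨ ∃ k, y ∈ B k ∨ y ∈ C k) →
    (z ∈ A ∨ ∃ k, z ∈ B k ∨ z ∈ C k) → U x + U y + U z = cost (x, y, z) →
    (x ∈ A ∧ ∃ k, (y = b k x ∧ z = c k x) ∨ (z = b k x ∧ y = c k x)) ∨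
    (y ∈ A ∧ ∃ k, (x = b k y ∧ z = c k y) ∨ (z = b k y ∧ x = c k y)) ∨
    (z ∈ A ∧ ∃ k, (x = b k z ∧ y = c k z) ∨ (y = b k z ∧ x = c k z))
  P2 : ∀ k, ∀ x ∈ A, U x + U (b k x) + U (c k x) = cost (x, b k x, c k x)
  P4 : ∀ ε : ℝ, 0 < ε → ∃ θ : ℝ, 0 < θ ∧ ∀ k, ∀ x ∈ A, ∀ x' ∈ A, ‖x - x'‖ ≤ θ →
    cost (x, b k x', c k x') ≤ U x + U (b k x') + U (c k x') + ENNReal.ofReal ε

namespace Sh
variable {d : ℕ} (S : Sh d)

/-- the marginal -/
noncomputable def mu : Measure (EuclideanSpace ℝ (Fin d)) :=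
  (3 : ℝ≥0∞)⁻¹ • S.γ + (6 : ℝ≥0∞)⁻¹ • (S.γ.map (S.b false) + S.γ.map (S.c false) +
    S.γ.map (S.b true) + S.γ.map (S.c true))

def W (x : EuclideanSpace ℝ (Fin d)) : Prop := x ∈ S.A ∨ ∃ k, x ∈ S.B k ∨ x ∈ S.C k

lemma measurableSet_W : MeasurableSet {x | S.W x} := by
  have : {x | S.W x} = S.A ∪ ⋃ k, (S.B k ∪ S.C k) := by
    ext x; simp [W]
  rw [this]
  exact S.hA.union (MeasurableSet.iUnion fun k => (S.hB k).union (S.hC k))

lemma lintegral_mu {F : EuclideanSpace ℝ (Fin d) → ℝ≥0∞} (hF : Measurable F) :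
    ∫⁻ x, F x ∂S.mu = (3 : ℝ≥0∞)⁻¹ * ∫⁻ x, F x ∂S.γ + (6 : ℝ≥0∞)⁻¹ *
      (∫⁻ x, F (S.b false x) ∂S.γ + ∫⁻ x, F (S.c false x) ∂S.γ + ∫⁻ x, F (S.b true x) ∂S.γ +
        ∫⁻ x, F (S.c true x) ∂S.γ) := by
  unfold mu
  rw [lintegral_add_measure, lintegral_smul_measure, lintegral_smul_measure,
    lintegral_add_measure, lintegral_add_measure, lintegral_add_measure,
    lintegral_map hF (S.hb _), lintegral_map hF (S.hb _), lintegral_map hF (S.hc _),
    lintegral_map hF (S.hc _)]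
  rfl

lemma ae_mu {P : EuclideanSpace ℝ (Fin d) → Prop} (hP : MeasurableSet {x | P x})
    (h : ∀ᵐ x ∂S.γ, P x ∧ ∀ k, P (S.b k x) ∧ P (S.c k x)) : ∀ᵐ x ∂S.mu, P x := by
  unfold mu
  rw [ae_add_measure_iff]
  refine ⟨?_, ?_⟩
  · apply Measure.ae_smul_measure
    filter_upwards [h] with x hx using hx.1
  · apply Measure.ae_smul_measure
    rw [ae_add_measure_iff, ae_add_measure_iff, ae_add_measure_iff]
    refine ⟨⟨⟨?_, ?_⟩, ?_⟩, ?_⟩
    · rw [ae_map_iff (S.hb _).aemeasurable hP]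
      filter_upwards [h] with x hx using (hx.2 false).1
    · rw [ae_map_iff (S.hc _).aemeasurable hP]
      filter_upwards [h] with x hx using (hx.2 false).2
    · rw [ae_map_iff (S.hb _).aemeasurable hP]
      filter_upwards [h] with x hx using (hx.2 true).1
    · rw [ae_map_iff (S.hc _).aemeasurable hP]
      filter_upwards [h] with x hx using (hx.2 true).2

lemma ae_W : ∀ᵐ x ∂S.mu, S.W x := by
  refine S.ae_mu S.measurableSet_W ?_
  filter_upwards [S.hγA] with x hx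
  exact ⟨Or.inl hx, fun k => ⟨Or.inr ⟨k, Or.inl (S.bB k x hx)⟩, Or.inr ⟨k, Or.inr (S.cC k x hx)⟩⟩⟩

lemma inv36 : (3 : ℝ≥0∞)⁻¹ = (6 : ℝ≥0∞)⁻¹ + (6 : ℝ≥0∞)⁻¹ := by
  have h : (6 : ℝ≥0∞)⁻¹ = (3 : ℝ≥0∞)⁻¹ * (2 : ℝ≥0∞)⁻¹ := by
    rw [← ENNReal.mul_inv (by norm_num) (by norm_num)]; norm_num
  rw [h, ← mul_add, ENNReal.inv_two_add_inv_two, mul_one]

lemma inv_sum : (3 : ℝ≥0∞)⁻¹ + (6 : ℝ≥0∞)⁻¹ * 4 = 1 := by
  have h3 : (3 : ℝ≥0∞)⁻¹ = (6 : ℝ≥0∞)⁻¹ * 2 := by rw [inv36, mul_two]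
  rw [h3, ← mul_add]
  have : (2 : ℝ≥0∞) + 4 = 6 := by norm_num
  rw [this]
  exact ENNReal.inv_mul_cancel (by norm_num) (by norm_num)

lemma mu_univ : S.mu univ = 1 := by
  have := S.prob
  unfold mu
  have hb : ∀ k, (S.γ.map (S.b k)) univ = 1 := fun k => by
    rw [Measure.map_apply (S.hb k) MeasurableSet.univ, preimage_univ, measure_univ]
  have hc : ∀ k, (S.γ.map (S.c k)) univ = 1 := fun k => by
    rw [Measure.map_apply (S.hc k) MeasurableSet.univ, preimage_univ, measure_univ]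
  simp only [Measure.add_apply, Measure.smul_apply, hb, hc, measure_univ, smul_eq_mul, mul_one]
  have : (1 : ℝ≥0∞) + 1 + 1 + 1 = 4 := by norm_num
  rw [this]
  exact inv_sum

instance : IsProbabilityMeasure S.mu := ⟨S.mu_univ⟩

/-- the common value: one third of the optimal cost -/
noncomputable def J : ℝ≥0∞ := ∫⁻ x, S.U x ∂S.mu

lemma J_le : S.J ≤ 2 := by
  unfold J
  calc ∫⁻ x, S.U x ∂S.mu ≤ ∫⁻ _, 2 ∂S.mu := lintegral_mono S.hU2
    _ = 2 := by simp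

lemma J_ne_top : S.J + S.J + S.J ≠ ⊤ := by
  have h := S.J_le
  have h2 : S.J ≠ ⊤ := ne_top_of_le_ne_top (by norm_num) h
  exact ENNReal.add_ne_top.2 ⟨ENNReal.add_ne_top.2 ⟨h2, h2⟩, h2⟩

lemma lintegral_coupling {π : Measure (EuclideanSpace ℝ (Fin d) × EuclideanSpace ℝ (Fin d) ×
    EuclideanSpace ℝ (Fin d))} (hπ : IsCoupling₃ S.mu π) :
    ∫⁻ p, (S.U p.1 + S.U p.2.1 + S.U p.2.2) ∂π = S.J + S.J + S.J := by
  obtain ⟨h1, h2, h3⟩ := hπ
  have m1 : Measurable (fun p : EuclideanSpace ℝ (Fin d) × EuclideanSpace ℝ (Fin d) ×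
    EuclideanSpace ℝ (Fin d) => p.1) := measurable_fst
  have m2 : Measurable (fun p : EuclideanSpace ℝ (Fin d) × EuclideanSpace ℝ (Fin d) ×
    EuclideanSpace ℝ (Fin d) => p.2.1) := measurable_fst.comp measurable_snd
  have m3 : Measurable (fun p : EuclideanSpace ℝ (Fin d) × EuclideanSpace ℝ (Fin d) ×
    EuclideanSpace ℝ (Fin d) => p.2.2) := measurable_snd.comp measurable_snd
  have n2 : Measurable (fun p : EuclideanSpace ℝ (Fin d) × EuclideanSpace ℝ (Fin d) ×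
    EuclideanSpace ℝ (Fin d) => S.U p.2.1) := S.hU.comp m2
  have n3 : Measurable (fun p : EuclideanSpace ℝ (Fin d) × EuclideanSpace ℝ (Fin d) ×
    EuclideanSpace ℝ (Fin d) => S.U p.2.2) := S.hU.comp m3
  rw [lintegral_add_right _ n3, lintegral_add_right _ n2]
  have e1 : ∫⁻ p, S.U p.1 ∂π = S.J := by
    unfold J; rw [← h1, lintegral_map S.hU m1]
  have e2 : ∫⁻ p, S.U p.2.1 ∂π = S.J := by
    unfold J; conv_rhs => rw [← h2]
    rw [lintegral_map S.hU m2]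
  have e3 : ∫⁻ p, S.U p.2.2 ∂π = S.J := by
    unfold J; conv_rhs => rw [← h3]
    rw [lintegral_map S.hU m3]
  rw [e1, e2, e3]

lemma ae_coupling {π : Measure (EuclideanSpace ℝ (Fin d) × EuclideanSpace ℝ (Fin d) ×
    EuclideanSpace ℝ (Fin d))} (hπ : IsCoupling₃ S.mu π) :
    ∀ᵐ p ∂π, S.W p.1 ∧ S.W p.2.1 ∧ S.W p.2.2 := by
  obtain ⟨h1, h2, h3⟩ := hπ
  have m1 : Measurable (fun p : EuclideanSpace ℝ (Fin d) × EuclideanSpace ℝ (Fin d) ×
    EuclideanSpace ℝ (Fin d) => p.1) := measurable_fst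
  have m2 : Measurable (fun p : EuclideanSpace ℝ (Fin d) × EuclideanSpace ℝ (Fin d) ×
    EuclideanSpace ℝ (Fin d) => p.2.1) := measurable_fst.comp measurable_snd
  have m3 : Measurable (fun p : EuclideanSpace ℝ (Fin d) × EuclideanSpace ℝ (Fin d) ×
    EuclideanSpace ℝ (Fin d) => p.2.2) := measurable_snd.comp measurable_snd
  have a1 : ∀ᵐ p ∂π, S.W p.1 := by
    have := S.ae_W; rw [← h1] at this; exact ae_of_ae_map m1.aemeasurable this
  have a2 : ∀ᵐ p ∂π, S.W p.2.1 := by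
    have := S.ae_W; rw [← h2] at this; exact ae_of_ae_map m2.aemeasurable this
  have a3 : ∀ᵐ p ∂π, S.W p.2.2 := by
    have := S.ae_W; rw [← h3] at this; exact ae_of_ae_map m3.aemeasurable this
  filter_upwards [a1, a2, a3] with p p1 p2 p3 using ⟨p1, p2, p3⟩

theorem lower_bound {π : Measure (EuclideanSpace ℝ (Fin d) × EuclideanSpace ℝ (Fin d) ×
    EuclideanSpace ℝ (Fin d))} (hπ : IsCoupling₃ S.mu π) :
    S.J + S.J + S.J ≤ ∫⁻ p, S.cost p ∂π := by
  rw [← S.lintegral_coupling hπ]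
  refine lintegral_mono_ae ?_
  filter_upwards [S.ae_coupling hπ] with p hp
  exact S.ineq p.1 p.2.1 p.2.2 hp.1 hp.2.1 hp.2.2

/-- the optimal plan -/
noncomputable def plan : Measure (EuclideanSpace ℝ (Fin d) × EuclideanSpace ℝ (Fin d) ×
    EuclideanSpace ℝ (Fin d)) :=
  (6 : ℝ≥0∞)⁻¹ • (
    (S.γ.map (fun x => (x, S.b false x, S.c false x)) +
     S.γ.map (fun x => (S.b false x, S.c false x, x)) +
     S.γ.map (fun x => (S.c false x, x, S.b false x))) +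
    (S.γ.map (fun x => (x, S.b true x, S.c true x)) +
     S.γ.map (fun x => (S.b true x, S.c true x, x)) +
     S.γ.map (fun x => (S.c true x, x, S.b true x))))

lemma m_abc (k : Bool) : Measurable (fun x => (x, S.b k x, S.c k x)) :=
  measurable_id.prodMk ((S.hb k).prodMk (S.hc k))
lemma m_bca (k : Bool) : Measurable (fun x => (S.b k x, S.c k x, x)) :=
  (S.hb k).prodMk ((S.hc k).prodMk measurable_id)
lemma m_cab (k : Bool) : Measurable (fun x => (S.c k x, x, S.b k x)) :=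
  (S.hc k).prodMk (measurable_id.prodMk (S.hb k))

lemma mu_eq : S.mu = (6 : ℝ≥0∞)⁻¹ • ((S.γ + S.γ.map (S.b false) + S.γ.map (S.c false)) +
    (S.γ + S.γ.map (S.b true) + S.γ.map (S.c true))) := by
  unfold mu
  rw [inv36, add_smul]
  simp only [smul_add]
  abel

theorem plan_coupling : IsCoupling₃ S.mu S.plan := by
  have m1 : Measurable (fun p : EuclideanSpace ℝ (Fin d) × EuclideanSpace ℝ (Fin d) ×
    EuclideanSpace ℝ (Fin d) => p.1) := measurable_fst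
  have m2 : Measurable (fun p : EuclideanSpace ℝ (Fin d) × EuclideanSpace ℝ (Fin d) ×
    EuclideanSpace ℝ (Fin d) => p.2.1) := measurable_fst.comp measurable_snd
  have m3 : Measurable (fun p : EuclideanSpace ℝ (Fin d) × EuclideanSpace ℝ (Fin d) ×
    EuclideanSpace ℝ (Fin d) => p.2.2) := measurable_snd.comp measurable_snd
  unfold plan
  rw [mu_eq]
  refine ⟨?_, ?_, ?_⟩
  · rw [Measure.map_smul]
    congr 1
    rw [Measure.map_add _ _ m1, Measure.map_add _ _ m1, Measure.map_add _ _ m1,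
      Measure.map_add _ _ m1, Measure.map_add _ _ m1]
    simp only [Measure.map_map m1 (S.m_abc _), Measure.map_map m1 (S.m_bca _),
      Measure.map_map m1 (S.m_cab _)]
    simp only [Function.comp_def, Measure.map_id']
  · rw [Measure.map_smul]
    congr 1
    rw [Measure.map_add _ _ m2, Measure.map_add _ _ m2, Measure.map_add _ _ m2,
      Measure.map_add _ _ m2, Measure.map_add _ _ m2]
    simp only [Measure.map_map m2 (S.m_abc _), Measure.map_map m2 (S.m_bca _),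
      Measure.map_map m2 (S.m_cab _)]
    simp only [Function.comp_def, Measure.map_id']
    have : ∀ a b c a' b' c' : Measure (EuclideanSpace ℝ (Fin d)),
      b + c + a + (b' + c' + a') = a + b + c + (a' + b' + c') := fun a b c a' b' c' => by abel
    exact this _ _ _ _ _ _
  · rw [Measure.map_smul]
    congr 1
    rw [Measure.map_add _ _ m3, Measure.map_add _ _ m3, Measure.map_add _ _ m3,
      Measure.map_add _ _ m3, Measure.map_add _ _ m3]
    simp only [Measure.map_map m3 (S.m_abc _), Measure.map_map m3 (S.m_bca _),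
      Measure.map_map m3 (S.m_cab _)]
    simp only [Function.comp_def, Measure.map_id']
    have : ∀ a b c a' b' c' : Measure (EuclideanSpace ℝ (Fin d)),
      c + a + b + (c' + a' + b') = a + b + c + (a' + b' + c') := fun a b c a' b' c' => by abel
    exact this _ _ _ _ _ _

theorem plan_cost : ∫⁻ p, S.cost p ∂S.plan = S.J + S.J + S.J := by
  rw [← S.lintegral_coupling S.plan_coupling]
  have hm : MeasurableSet {p : EuclideanSpace ℝ (Fin d) × EuclideanSpace ℝ (Fin d) ×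
    EuclideanSpace ℝ (Fin d) | S.cost p = S.U p.1 + S.U p.2.1 + S.U p.2.2} := by
    have h1 : Measurable (fun p : EuclideanSpace ℝ (Fin d) × EuclideanSpace ℝ (Fin d) ×
      EuclideanSpace ℝ (Fin d) => S.U p.1 + S.U p.2.1 + S.U p.2.2) :=
      ((S.hU.comp measurable_fst).add (S.hU.comp (measurable_fst.comp measurable_snd))).add
        (S.hU.comp (measurable_snd.comp measurable_snd))
    exact measurableSet_eq_fun S.hcost h1
  refine lintegral_congr_ae ?_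
  change ∀ᵐ p ∂S.plan, S.cost p = S.U p.1 + S.U p.2.1 + S.U p.2.2
  unfold plan
  apply Measure.ae_smul_measure
  simp only [ae_add_measure_iff]
  have key : ∀ k, (∀ᵐ p ∂(S.γ.map (fun x => (x, S.b k x, S.c k x))),
      S.cost p = S.U p.1 + S.U p.2.1 + S.U p.2.2) ∧
      (∀ᵐ p ∂(S.γ.map (fun x => (S.b k x, S.c k x, x))),
      S.cost p = S.U p.1 + S.U p.2.1 + S.U p.2.2) ∧
      (∀ᵐ p ∂(S.γ.map (fun x => (S.c k x, x, S.b k x))),
      S.cost p = S.U p.1 + S.U p.2.1 + S.U p.2.2) := by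
    intro k
    refine ⟨?_, ?_, ?_⟩
    · rw [ae_map_iff (S.m_abc k).aemeasurable hm]
      filter_upwards [S.hγA] with x hx
      exact (S.P2 k x hx).symm
    · rw [ae_map_iff (S.m_bca k).aemeasurable hm]
      filter_upwards [S.hγA] with x hx
      have h1 : S.cost (S.b k x, S.c k x, x) = S.cost (x, S.b k x, S.c k x) := by
        rw [S.s23, S.s12]
      rw [h1, ← S.P2 k x hx]
      ring
    · rw [ae_map_iff (S.m_cab k).aemeasurable hm]
      filter_upwards [S.hγA] with x hx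
      have h1 : S.cost (S.c k x, x, S.b k x) = S.cost (x, S.b k x, S.c k x) := by
        rw [S.s12, S.s23]
      rw [h1, ← S.P2 k x hx]
      ring
  exact ⟨⟨⟨(key false).1, (key false).2.1⟩, (key false).2.2⟩,
    ⟨⟨(key true).1, (key true).2.1⟩, (key true).2.2⟩⟩

end Sh

end Crest.Agent.H12.Split
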