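import Crest.Agent.H12.SplitInv

set_option autoImplicit false
open Real Set Filter
open scoped Topology RealInnerProductSpace ContDiff

namespace Crest.Agent.H12.Split

variable {E : Type*} [NormedAddCommGroup E] [InnerProductSpace ℝ E]

/-- strong convexity at a critical point, global in `x`, `z` -/
lemma global_ineq {s : ℝ} (hs : 0 < s) {K : ℝ} (hK : 6 * (s / 2 * 2 ^ (s + 2)) + 2 ≤ K) {e r : E}
    {x₀ y z₀ : E} (hxy : 1 / 2 ≤ ‖x₀ - y‖) (hxz : 1 / 2 ≤ ‖x₀ - z₀‖) (hzy : 1 / 2 ≤ ‖z₀ - y‖)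
    (h1 : G s (x₀ - y) + G s (x₀ - z₀) + K • x₀ = 0)
    (h2 : G s (z₀ - y) + G s (z₀ - x₀) + K • (z₀ + e) - r = 0)
    {x z : E} (nxy : x ≠ y) (nxz : x ≠ z) (nyz : y ≠ z) :
    f s (x₀ - y) + f s (x₀ - z₀) + f s (y - z₀) + K / 2 * ‖x₀‖ ^ 2 + K / 2 * ‖z₀ + e‖ ^ 2
      - ⟪r, z₀ + e⟫ + (‖x - x₀‖ ^ 2 + ‖z - z₀‖ ^ 2) ≤
    f s (x - y) + f s (x - z) + f s (y - z) + K / 2 * ‖x‖ ^ 2 + K / 2 * ‖z + e‖ ^ 2
      - ⟪r, z + e⟫ := by
  set C := s / 2 * 2 ^ (s + 2) with hC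
  have hC0 : 0 < C := by positivity
  obtain ⟨a, rfl⟩ : ∃ a, x = x₀ + a := ⟨x - x₀, by abel⟩
  obtain ⟨b, rfl⟩ : ∃ b, z = z₀ + b := ⟨z - z₀, by abel⟩
  have bound : ∀ {v : E}, 1 / 2 ≤ ‖v‖ → s / 2 * ‖v‖ ^ (-s - 2) ≤ C := by
    intro v hv
    rw [hC]
    gcongr
    have h3 : ‖v‖ ^ (-s - 2) ≤ (1 / 2 : ℝ) ^ (-s - 2) :=
      rpow_le_rpow_of_nonpos (by norm_num) hv (by linarith)
    refine h3.trans (le_of_eq ?_)
    rw [one_div, inv_rpow (by norm_num), ← rpow_neg (by norm_num)]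
    congr 1; ring
  have ne0 : ∀ {v : E}, 1 / 2 ≤ ‖v‖ → v ≠ 0 := by
    intro v hv h
    rw [h, norm_zero] at hv; norm_num at hv
  have t1 := f_tangent hs (v := x₀ - y) (w := a) (ne0 hxy) (by
    intro h; apply nxy; rw [← sub_eq_zero, ← h]; abel)
  have t2 := f_tangent hs (v := x₀ - z₀) (w := a - b) (ne0 hxz) (by
    intro h; apply nxz; rw [← sub_eq_zero, ← h]; abel)
  have t3 := f_tangent hs (v := z₀ - y) (w := b) (ne0 hzy) (by
    intro h; apply nyz; rw [eq_comm, ← sub_eq_zero, ← h]; abel)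
  have fneg : ∀ v : E, f s (-v) = f s v := fun v => by unfold f; rw [norm_neg]
  have e1 : x₀ - y + a = x₀ + a - y := by abel
  have e2 : x₀ - z₀ + (a - b) = x₀ + a - (z₀ + b) := by abel
  have e3 : z₀ - y + b = -(y - (z₀ + b)) := by abel
  have e4 : z₀ - y = -(y - z₀) := by abel
  rw [e1] at t1
  rw [e2] at t2
  rw [e3, fneg, e4, fneg, ← e4] at t3
  have b1 : s / 2 * ‖x₀ - y‖ ^ (-s - 2) * ‖a‖ ^ 2 ≤ C * ‖a‖ ^ 2 := by
    gcongr; exact bound hxy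
  have b2 : s / 2 * ‖x₀ - z₀‖ ^ (-s - 2) * ‖a - b‖ ^ 2 ≤ C * (2 * ‖a‖ ^ 2 + 2 * ‖b‖ ^ 2) := by
    have : ‖a - b‖ ^ 2 ≤ 2 * ‖a‖ ^ 2 + 2 * ‖b‖ ^ 2 := by
      have h5 := parallelogram_law_with_norm ℝ a b
      nlinarith [norm_nonneg (a + b)]
    calc _ ≤ C * ‖a - b‖ ^ 2 := by gcongr; exact bound hxz
      _ ≤ _ := by gcongr
  have b3 : s / 2 * ‖z₀ - y‖ ^ (-s - 2) * ‖b‖ ^ 2 ≤ C * ‖b‖ ^ 2 := by
    gcongr; exact bound hzy
  have e4' : ‖-(y - z₀)‖ = ‖z₀ - y‖ := by rw [← e4]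
  have n1 : ‖x₀ + a‖ ^ 2 = ‖x₀‖ ^ 2 + 2 * ⟪x₀, a⟫ + ‖a‖ ^ 2 := norm_add_sq_real _ _
  have n2 : ‖z₀ + b + e‖ ^ 2 = ‖z₀ + e‖ ^ 2 + 2 * ⟪z₀ + e, b⟫ + ‖b‖ ^ 2 := by
    rw [← norm_add_sq_real]; congr 2; abel
  have n3 : ⟪r, z₀ + b + e⟫ = ⟪r, z₀ + e⟫ + ⟪r, b⟫ := by
    rw [← inner_add_right]; congr 1; abel
  have i1 : ⟪G s (x₀ - y), a⟫ + ⟪G s (x₀ - z₀), a⟫ + K * ⟪x₀, a⟫ = 0 := by
    have := congrArg (fun v => ⟪v, a⟫) h1
    simpa [inner_add_left, inner_smul_left] using this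
  have i2 : ⟪G s (z₀ - y), b⟫ - ⟪G s (x₀ - z₀), b⟫ + K * ⟪z₀ + e, b⟫ - ⟪r, b⟫ = 0 := by
    have h6 : G s (z₀ - x₀) = - G s (x₀ - z₀) := by rw [← G_neg, neg_sub]
    rw [h6] at h2
    have := congrArg (fun v => ⟪v, b⟫) h2
    simp only [inner_add_left, inner_sub_left, inner_neg_left, inner_smul_left, conj_trivial,
      inner_zero_left] at this
    simp only [inner_add_left]
    linarith
  rw [inner_sub_right] at t2
  have e5 : x₀ + a - x₀ = a := by abel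
  have e6 : z₀ + b - z₀ = b := by abel
  rw [e5, e6, n1, n2, n3]
  have hq : (3 * C + 1) * (‖a‖ ^ 2 + ‖b‖ ^ 2) ≤ K / 2 * (‖a‖ ^ 2 + ‖b‖ ^ 2) := by
    gcongr; linarith
  linarith

variable [FiniteDimensional ℝ E]

theorem local_structure {s : ℝ} (hs : 0 < s) {e : E} (he : ‖e‖ = 1) :
    ∃ K : ℝ, 0 < K ∧ ∃ r : E, ∃ T₂ T₃ : OpenPartialHomeomorph E E,
      T₂.source = T₃.source ∧ (0 : E) ∈ T₂.source ∧ T₂ 0 = e ∧ T₃ 0 = -e ∧
      (∀ x ∈ T₂.source, ContDiffAt ℝ ω T₂ x) ∧ (∀ x ∈ T₂.source, ContDiffAt ℝ ω T₃ x) ∧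
      (∀ y ∈ T₂.target, ContDiffAt ℝ ω T₂.symm y) ∧ (∀ y ∈ T₃.target, ContDiffAt ℝ ω T₃.symm y) ∧
      ∀ x₀ ∈ T₂.source, ∀ x z : E, x ≠ T₂ x₀ → x ≠ z → T₂ x₀ ≠ z →
        f s (x₀ - T₂ x₀) + f s (x₀ - T₃ x₀) + f s (T₂ x₀ - T₃ x₀) + K / 2 * ‖x₀‖ ^ 2
          + K / 2 * ‖T₃ x₀ + e‖ ^ 2 - ⟪r, T₃ x₀ + e⟫ + (‖x - x₀‖ ^ 2 + ‖z - T₃ x₀‖ ^ 2) ≤
        f s (x - T₂ x₀) + f s (x - z) + f s (T₂ x₀ - z) + K / 2 * ‖x‖ ^ 2
          + K / 2 * ‖z + e‖ ^ 2 - ⟪r, z + e⟫ := by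
  classical
  have he0 : e ≠ 0 := by
    intro h; rw [h, norm_zero] at he; exact zero_ne_one he
  set L := fderiv ℝ (G (E := E) s) e with hL
  set κ := (2 : ℝ) ^ (-s - 2) with hκ
  have hκ0 : 0 < κ := by positivity
  have hκ1 : κ ≤ 1 := by
    rw [hκ]; exact rpow_le_one_of_one_le_of_nonpos (by norm_num) (by linarith)
  set K : ℝ := 6 * (s / 2 * 2 ^ (s + 2)) + 2 + (4 + κ⁻¹) * ‖L‖ with hKdef
  have hl : 0 ≤ ‖L‖ := norm_nonneg _
  have hC0 : 0 < s / 2 * (2 : ℝ) ^ (s + 2) := by positivity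
  have hK1 : 6 * (s / 2 * 2 ^ (s + 2)) + 2 ≤ K := by
    have : 0 ≤ (4 + κ⁻¹) * ‖L‖ := by positivity
    linarith
  have hK2 : (4 + κ⁻¹) * ‖L‖ < K := by linarith
  have hKpos : 0 < K := by linarith
  set r : E := G s (-e - e) + G s (-e - 0) with hr
  set p₀ : E × E × E := (0, e, -e) with hp₀
  have hX0 : Xi s K e r p₀ = 0 := by
    rw [hp₀]; unfold Xi
    simp only
    rw [zero_sub, zero_sub, neg_neg, G_neg, smul_zero, add_zero, neg_add_cancel, neg_add_cancel,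
      smul_zero, add_zero, hr, sub_self]
    rfl
  have hinj := DXi_inj (K := K) (κ := κ) (L := L)
    (fun w hw => fderiv_G_injective hs he hw) hκ0 hκ1 hK2
  have hD : HasFDerivAt (Xi s K e r) (DXi K κ L) p₀ := Xi_hasFDerivAt s K he r
  obtain ⟨D, hDeq⟩ := exists_equiv (DXi K κ L) hinj.1
  have hD' : HasFDerivAt (Xi s K e r) (D : (E × E × E) →L[ℝ] (E × E × E)) p₀ := by
    rw [hDeq]; exact hD
  have hne1 : p₀.1 - p₀.2.1 ≠ 0 := by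
    rw [hp₀]; simpa using he0
  have hne2 : p₀.1 - p₀.2.2 ≠ 0 := by
    rw [hp₀]; simpa using he0
  have hne3 : p₀.2.2 - p₀.2.1 ≠ 0 := by
    rw [hp₀]
    simp only
    have : -e - e = - ((2 : ℝ) • e) := by rw [two_smul]; abel
    rw [this]
    exact neg_ne_zero.2 (smul_ne_zero two_ne_zero he0)
  have hcd : ContDiffAt ℝ ω (Xi s K e r) p₀ := Xi_contDiffAt s K e r hne1 hne2 hne3
  set P := hcd.toOpenPartialHomeomorph (Xi s K e r) hD' (by simp) with hP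
  have hPc : (P : E × E × E → E × E × E) = Xi s K e r := rfl
  have hp₀P : p₀ ∈ P.source := hcd.mem_toOpenPartialHomeomorph_source hD' (by simp)
  have h0t : (0 : E × E × E) ∈ P.target := by
    have := P.map_source hp₀P
    rwa [hPc, hX0] at this
  have hs0 : P.symm 0 = p₀ := by
    have := P.left_inv hp₀P
    rwa [hPc, hX0] at this
  -- the inverse is analytic at 0
  have hsymm : ContDiffAt ℝ ω P.symm (0 : E × E × E) := by
    refine P.contDiffAt_symm h0t (f₀' := D) ?_ ?_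
    · rw [hs0, hPc]; exact hD'
    · rw [hs0, hPc]; exact hcd
  -- the curve
  set ι : E → E × E × E := fun x => (x, 0, 0) with hι
  have hι0 : ι 0 = 0 := rfl
  set Lι : E →L[ℝ] E × E × E := ContinuousLinearMap.inl ℝ E (E × E) with hLι
  have hιc : ContDiff ℝ ω ι := Lι.contDiff
  set φ : E → E × E × E := fun x => P.symm (ι x) with hφ
  have hφc : ContDiffAt ℝ ω φ 0 := by
    have : ContDiffAt ℝ ω P.symm (ι 0) := by rw [hι0]; exact hsymm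
    exact this.comp (0 : E) hιc.contDiffAt
  have hφ0 : φ 0 = p₀ := by rw [hφ]; simp only [hι0, hs0]
  -- eventually in target
  have hev_t : ∀ᶠ x in 𝓝 (0 : E), ι x ∈ P.target := by
    have : P.target ∈ 𝓝 (ι 0) := by rw [hι0]; exact P.open_target.mem_nhds h0t
    exact hιc.continuous.continuousAt.eventually this
  have hXφ : ∀ x, ι x ∈ P.target → Xi s K e r (φ x) = ι x := fun x hx => P.right_inv hx
  -- derivative of φ
  have hφd : HasFDerivAt φ (fderiv ℝ φ 0) 0 := (hφc.differentiableAt (by simp)).hasFDerivAt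
  set A := fderiv ℝ φ 0 with hA
  have hDA : ∀ w, DXi K κ L (A w) = (w, 0, 0) := by
    have h1 : HasFDerivAt (fun x => Xi s K e r (φ x)) ((DXi K κ L).comp A) 0 := by
      have : HasFDerivAt (Xi s K e r) (DXi K κ L) (φ 0) := by rw [hφ0]; exact hD
      exact this.comp 0 hφd
    have h2 : HasFDerivAt (fun x => Xi s K e r (φ x)) Lι 0 := by
      have h3 : HasFDerivAt ι Lι 0 := Lι.hasFDerivAt
      refine h3.congr_of_eventuallyEq ?_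
      filter_upwards [hev_t] with x hx using hXφ x hx
    have h4 := h1.unique h2
    intro w
    exact congrArg (fun B : E →L[ℝ] E × E × E => B w) h4
  -- T₂, T₃ as functions
  set t₂ : E → E := fun x => (φ x).2.1 with ht₂
  set t₃ : E → E := fun x => (φ x).2.2 with ht₃
  have ht₂c : ContDiffAt ℝ ω t₂ 0 := by
    have h1 : ContDiffAt ℝ ω (fun p : E × E × E => p.2.1) (φ 0) :=
      contDiffAt_fst.comp _ contDiffAt_snd
    exact h1.comp (0 : E) hφc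
  have ht₃c : ContDiffAt ℝ ω t₃ 0 := by
    have h1 : ContDiffAt ℝ ω (fun p : E × E × E => p.2.2) (φ 0) :=
      contDiffAt_snd.comp _ contDiffAt_snd
    exact h1.comp (0 : E) hφc
  have ht₂d : HasFDerivAt t₂ (((ContinuousLinearMap.fst ℝ E E).comp
      (ContinuousLinearMap.snd ℝ E (E × E))).comp A) 0 := by
    have h1 : HasFDerivAt (fun p : E × E × E => p.2.1) ((ContinuousLinearMap.fst ℝ E E).comp
      (ContinuousLinearMap.snd ℝ E (E × E))) (φ 0) := hasFDerivAt_fst.comp _ hasFDerivAt_snd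
    exact h1.comp (0 : E) hφd
  have ht₃d : HasFDerivAt t₃ (((ContinuousLinearMap.snd ℝ E E).comp
      (ContinuousLinearMap.snd ℝ E (E × E))).comp A) 0 := by
    have h1 : HasFDerivAt (fun p : E × E × E => p.2.2) ((ContinuousLinearMap.snd ℝ E E).comp
      (ContinuousLinearMap.snd ℝ E (E × E))) (φ 0) := hasFDerivAt_snd.comp _ hasFDerivAt_snd
    exact h1.comp (0 : E) hφd
  obtain ⟨D₂, hD₂⟩ := exists_equiv (((ContinuousLinearMap.fst ℝ E E).comp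
      (ContinuousLinearMap.snd ℝ E (E × E))).comp A) (fun w hw => hinj.2.1 (A w) w (hDA w) hw)
  obtain ⟨D₃, hD₃⟩ := exists_equiv (((ContinuousLinearMap.snd ℝ E E).comp
      (ContinuousLinearMap.snd ℝ E (E × E))).comp A) (fun w hw => hinj.2.2 (A w) w (hDA w) hw)
  rw [← hD₂] at ht₂d
  rw [← hD₃] at ht₃d
  have ht₂0 : t₂ 0 = e := by rw [ht₂]; simp only [hφ0, hp₀]
  have ht₃0 : t₃ 0 = -e := by rw [ht₃]; simp only [hφ0, hp₀]
  set Q₂ := ht₂c.toOpenPartialHomeomorph t₂ ht₂d (by simp) with hQ₂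
  set Q₃ := ht₃c.toOpenPartialHomeomorph t₃ ht₃d (by simp) with hQ₃
  have hQ₂c : (Q₂ : E → E) = t₂ := rfl
  have hQ₃c : (Q₃ : E → E) = t₃ := rfl
  have h0Q₂ : (0 : E) ∈ Q₂.source := ht₂c.mem_toOpenPartialHomeomorph_source ht₂d (by simp)
  have h0Q₃ : (0 : E) ∈ Q₃.source := ht₃c.mem_toOpenPartialHomeomorph_source ht₃d (by simp)
  have hQ₂s : ContDiffAt ℝ ω Q₂.symm (t₂ 0) := by
    have h1 : t₂ 0 ∈ Q₂.target := Q₂.map_source h0Q₂
    have h2 : Q₂.symm (t₂ 0) = 0 := Q₂.left_inv h0Q₂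
    refine Q₂.contDiffAt_symm h1 (f₀' := D₂) ?_ ?_
    · rw [h2]; exact ht₂d
    · rw [h2]; exact ht₂c
  have hQ₃s : ContDiffAt ℝ ω Q₃.symm (t₃ 0) := by
    have h1 : t₃ 0 ∈ Q₃.target := Q₃.map_source h0Q₃
    have h2 : Q₃.symm (t₃ 0) = 0 := Q₃.left_inv h0Q₃
    refine Q₃.contDiffAt_symm h1 (f₀' := D₃) ?_ ?_
    · rw [h2]; exact ht₃d
    · rw [h2]; exact ht₃c
  have hωne : (ω : WithTop ℕ∞) ≠ ∞ := by simp
  -- eventual properties
  have ev1 : ∀ᶠ x in 𝓝 (0 : E), ContDiffAt ℝ ω t₂ x := ht₂c.eventually hωne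
  have ev2 : ∀ᶠ x in 𝓝 (0 : E), ContDiffAt ℝ ω t₃ x := ht₃c.eventually hωne
  have ev3 : ∀ᶠ x in 𝓝 (0 : E), ContDiffAt ℝ ω Q₂.symm (t₂ x) :=
    ht₂c.continuousAt.eventually (hQ₂s.eventually hωne)
  have ev4 : ∀ᶠ x in 𝓝 (0 : E), ContDiffAt ℝ ω Q₃.symm (t₃ x) :=
    ht₃c.continuousAt.eventually (hQ₃s.eventually hωne)
  have c1 : ContinuousAt (fun x => ‖x - t₂ x‖) 0 :=
    (continuousAt_id.sub ht₂c.continuousAt).norm
  have c2 : ContinuousAt (fun x => ‖x - t₃ x‖) 0 :=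
    (continuousAt_id.sub ht₃c.continuousAt).norm
  have c3 : ContinuousAt (fun x => ‖t₃ x - t₂ x‖) 0 :=
    (ht₃c.continuousAt.sub ht₂c.continuousAt).norm
  have ev5 : ∀ᶠ x in 𝓝 (0 : E), 1 / 2 < ‖x - t₂ x‖ := by
    refine c1.eventually (lt_mem_nhds ?_)
    simp only [ht₂0, zero_sub, norm_neg, he]; norm_num
  have ev6 : ∀ᶠ x in 𝓝 (0 : E), 1 / 2 < ‖x - t₃ x‖ := by
    refine c2.eventually (lt_mem_nhds ?_)
    simp only [ht₃0, zero_sub, norm_neg, he]; norm_num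
  have ev7 : ∀ᶠ x in 𝓝 (0 : E), 1 / 2 < ‖t₃ x - t₂ x‖ := by
    refine c3.eventually (lt_mem_nhds ?_)
    simp only [ht₂0, ht₃0]
    have : -e - e = - ((2 : ℝ) • e) := by rw [two_smul]; abel
    rw [this, norm_neg, norm_smul, he]; norm_num
  have ev8 : ∀ᶠ x in 𝓝 (0 : E), x ∈ Q₂.source := Q₂.open_source.mem_nhds h0Q₂
  have ev9 : ∀ᶠ x in 𝓝 (0 : E), x ∈ Q₃.source := Q₃.open_source.mem_nhds h0Q₃
  have evall := (ev1.and (ev2.and (ev3.and (ev4.and (ev5.and (ev6.and (ev7.and (ev8.and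
    (ev9.and hev_t)))))))))
  obtain ⟨U, hUsub, hUo, h0U⟩ := eventually_nhds_iff.1 evall
  refine ⟨K, hKpos, r, Q₂.restrOpen U hUo, Q₃.restrOpen U hUo, ?_, ?_, ?_, ?_, ?_, ?_, ?_, ?_, ?_⟩
  · ext x
    simp only [OpenPartialHomeomorph.restrOpen_source, mem_inter_iff]
    constructor
    · rintro ⟨_, hx⟩
      exact ⟨(hUsub x hx).2.2.2.2.2.2.2.2.1, hx⟩
    · rintro ⟨_, hx⟩
      exact ⟨(hUsub x hx).2.2.2.2.2.2.2.1, hx⟩
  · exact ⟨h0Q₂, h0U⟩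
  · exact ht₂0
  · exact ht₃0
  · intro x hx
    exact (hUsub x hx.2).1
  · intro x hx
    exact (hUsub x hx.2).2.1
  · intro y hy
    obtain ⟨x, hx, rfl⟩ := (Q₂.restrOpen U hUo).surjOn hy
    exact (hUsub x hx.2).2.2.1
  · intro y hy
    obtain ⟨x, hx, rfl⟩ := (Q₃.restrOpen U hUo).surjOn hy
    exact (hUsub x hx.2).2.2.2.1
  · intro x₀ hx₀ x z nxy nxz nyz
    obtain ⟨-, -, -, -, q5, q6, q7, -, -, q10⟩ := hUsub x₀ hx₀.2
    have hX := hXφ x₀ q10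
    have hX' : φ x₀ = ((φ x₀).1, t₂ x₀, t₃ x₀) := rfl
    rw [hX'] at hX
    unfold Xi at hX
    simp only [hι, Prod.mk.injEq] at hX
    obtain ⟨g1, g2, g3⟩ := hX
    rw [g1] at g2 g3
    exact global_ineq hs hK1 q5.le q6.le q7.le g2 g3 nxy nxz nyz

end Crest.Agent.H12.Split
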